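import Vale.Agent.P227.M.ID.K.LL
import Vale.Agent.P227.M.ID.Rad

/-! # P227/M/ID/K : `StmtTau` (from `ID/Rad.lean`) -/

set_option linter.all false

open MeasureTheory Filter
open scoped Topology

namespace Vale.Agent.P227.M.K

variable {n : ℕ}

theorem posDef_of_qf {A : Matrix (Fin n) (Fin n) ℝ} {c : ℝ} (hc : 0 < c)
    (hs : ∀ i j, A i j = A j i) (hA : ∀ v : E n, c * ‖v‖ ^ 2 ≤ qf A v) : A.PosDef := by
  refine Matrix.PosDef.of_dotProduct_mulVec_pos ?_ ?_
  · ext i j
    simp [hs i j]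
  · intro x hx
    have h1 := hA (WithLp.toLp 2 x)
    have h2 : (WithLp.toLp 2 x : E n) ≠ 0 := by
      intro h
      exact hx (by simpa using congrArg WithLp.ofLp h)
    have h3 : 0 < c * ‖(WithLp.toLp 2 x : E n)‖ ^ 2 := by positivity
    have h4 : qf A (WithLp.toLp 2 x) = star x ⬝ᵥ A.mulVec x := by
      rw [rad_qf]
      simp [dotProduct]
    rw [← h4]
    exact h3.trans_le h1

theorem hess_posDef {ψ V : E n → ℝ} {c C M : ℝ} (h : MM ψ V c C M) (x : E n) : (hess ψ x).PosDef :=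
  posDef_of_qf h.c_pos (fun i j => rad_hess_symm h.C2 x i j) (h.lower x)

theorem tau_posDef {ψ V : E n → ℝ} {c C M : ℝ} (h : MM ψ V c C M) (x : E n) : (tau ψ x).PosDef :=
  (hess_posDef h x).inv

theorem stmtTau : StmtTau := by
  intro n ψ V c C M hN h
  refine ⟨fun i j R => ⟨M, fun x y _ _ => h.lip i j x y⟩, fun i j R => ⟨_, fun x y _ _ => rad_tau_lip h x y i j⟩,
    tau_posDef h, hess_posDef h, ?_⟩
  filter_upwards [rad_good h] with x hx
  refine ⟨hx.1, hx.2, fun i j k => D3_symm h hx i j k, fun i j k => ?_, fun b => ?_⟩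
  · rw [rad_dtau h hx, Matrix.mul_apply]
    simp only [Matrix.mul_apply, Matrix.of_apply, Finset.sum_mul]
    rw [Finset.sum_comm]
    rfl
  · have h1 := rad_div h hx b
    rw [Finset.sum_sub_distrib] at h1
    have h2 : ∑ a, tau ψ x a b * pd a V x = ∑ a, pd a V x * tau ψ x a b :=
      Finset.sum_congr rfl fun a _ => mul_comm _ _
    linarith

end Vale.Agent.P227.M.K
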