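import Vale.Agent.P227.M.ID.K.AlgStmt
import Vale.Agent.P227.M.ID.AlgX

/-! # P227/M/ID/K : pointwise algebra for `StmtKey` (helper848) -/

namespace Vale.Agent.P227.M.K814

open Matrix

/-- `tr M² ≥ 0` if `t M` is symmetric and `t` positive definite -/
theorem aj_trace_sq {n : ℕ} {t M : Matrix (Fin n) (Fin n) ℝ} (ht : t.PosDef)
    (hM : (t * M).IsSymm) : 0 ≤ ∑ b, ∑ c, M b c * M c b := by
  obtain ⟨A, hA⟩ := ID.t_matrix_root ht
  have h := ID.t_trace_sq_nonneg (ti := fun a b => t⁻¹ a b) hA (S := fun a b => (t * M) a b)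
    fun a b => (hM.apply a b).symm
  have hu : IsUnit t.det := (Matrix.isUnit_iff_isUnit_det _).1 ht.isUnit
  have h1 : ∀ b c, ∑ a, t⁻¹ b a * (t * M) a c = M b c := by
    intro b c
    rw [← Matrix.mul_apply, Matrix.nonsing_inv_mul_cancel_left _ _ hu]
  simp only [h1] at h
  exact h

theorem algJ : AlgJ := by
  intro n t N J ht hN hJ
  have hts : t.IsSymm := by
    have := ht.isHermitian
    ext a b
    exact this.apply a b
  have hM : (t * (J - N * t)).IsSymm := by
    rw [Matrix.mul_sub]
    refine hJ.sub ?_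
    unfold Matrix.IsSymm
    rw [Matrix.transpose_mul, Matrix.transpose_mul, hts.eq, hN.eq, Matrix.mul_assoc]
  have h := aj_trace_sq ht hM
  have e0 : ∀ A B : Matrix (Fin n) (Fin n) ℝ, ∑ b, ∑ c, A b c * B c b = (A * B).trace := by
    intro A B
    unfold Matrix.trace
    refine Finset.sum_congr rfl fun b _ => ?_
    rw [Matrix.diag_apply, Matrix.mul_apply]
  rw [e0, Matrix.sub_mul, Matrix.mul_sub, Matrix.mul_sub, Matrix.trace_sub, Matrix.trace_sub,
    Matrix.trace_sub, Matrix.trace_mul_comm (N * t) J] at h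
  have e1 : ∑ a, ∑ b, J a b * (t * N) a b = (J * (N * t)).trace := by
    rw [← e0]
    refine Finset.sum_congr rfl fun a _ => Finset.sum_congr rfl fun b _ => ?_
    congr 1
    have h2 : (N * t) = (t * N)ᵀ := by
      rw [Matrix.transpose_mul, hts.eq, hN.eq]
    rw [h2, Matrix.transpose_apply]
  have e2 : ∑ a, ∑ b, ∑ d, t d a * (t * N) b d * N a b = (N * t * (N * t)).trace := by
    have h3 : ∀ a b, ∑ d, t d a * (t * N) b d * N a b = N a b * (t * (N * t)) b a := by
      intro a b
      rw [← Matrix.mul_assoc, Matrix.mul_apply (M := t * N), Finset.mul_sum]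
      exact Finset.sum_congr rfl fun d _ => by ring
    simp only [h3]
    rw [e0, Matrix.mul_assoc]
  rw [e1, e2, e0]
  linarith

end Vale.Agent.P227.M.K814
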