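import Vale.Agent.P227.M.ID.K.Uf

/-! # P227/M/ID/K : pointwise identities at good points (helper318) -/

open MeasureTheory Filter Topology Set Metric
open scoped NNReal ENNReal ContDiff

namespace Vale.Agent.P227.M.K814

variable {n : ℕ} {ψ V : E n → ℝ} {c C M : ℝ} {x : E n}

theorem ae814_cd_pd {F : E n → ℝ} (hF : ContDiff ℝ (⊤ : ℕ∞) F) (i : Fin n) :
    ContDiff ℝ (⊤ : ℕ∞) (pd i F) :=
  (hF.fderiv_right (m := (⊤ : ℕ∞)) (by simp)).clm_apply contDiff_const

theorem ae814_cd_diff {F : E n → ℝ} (hF : ContDiff ℝ (⊤ : ℕ∞) F) (y : E n) :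
    DifferentiableAt ℝ F y :=
  (hF.differentiable (by simp)).differentiableAt

theorem ae814_hess_symm {F : E n → ℝ} (hF : ContDiff ℝ (⊤ : ℕ∞) F) (y : E n) (i j : Fin n) :
    hess F y i j = hess F y j i :=
  FlatB.hess_symm (contDiff_infty.1 hF 2) i j y

/-- derivative of `fld` at a good point -/
theorem ae814_pd_fld (hx : Good ψ x) {u : E n → ℝ} (hu : ContDiff ℝ (⊤ : ℕ∞) u) (a b : Fin n) :
    pd a (fld ψ u b) x =
      ∑ k, (pd a (fun y => tau ψ y b k) x * pd k u x + tau ψ x b k * hess u x a k) := by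
  have e : fld ψ u b = fun y => ∑ k, tau ψ y b k * pd k u y := rfl
  have hd : ∀ k, DifferentiableAt ℝ (pd k u) x := fun k => ae814_cd_diff (ae814_cd_pd hu k) x
  rw [e, rpd_sum fun k _ => (hx.2 b k).fun_mul (hd k)]
  exact Finset.sum_congr rfl fun k _ => rpd_mul (hx.2 b k) (hd k)

/-- derivative of `Uf` at a good point -/
theorem ae814_pd_Uf (hx : Good ψ x) {F : E n → ℝ} (hF : ContDiff ℝ (⊤ : ℕ∞) F) (e b d : Fin n) :
    pd e (Uf ψ F b d) x =
      ∑ k, (pd e (fun y => tau ψ y b k) x * hess F x k d +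
        tau ψ x b k * pd e (fun y => hess F y k d) x) := by
  have e1 : Uf ψ F b d = fun y => ∑ k, tau ψ y b k * hess F y k d := rfl
  have hd : ∀ k, DifferentiableAt ℝ (fun y => hess F y k d) x := fun k =>
    ae814_cd_diff (ae814_cd_pd (ae814_cd_pd hF d) k) x
  rw [e1, rpd_sum fun k _ => (hx.2 b k).fun_mul (hd k)]
  exact Finset.sum_congr rfl fun k _ => rpd_mul (hx.2 b k) (hd k)

/-- (E5) -/
theorem ae_E5 (h : MM ψ V c C M) (hx : Good ψ x) {u : E n → ℝ} (hu : ContDiff ℝ (⊤ : ℕ∞) u) :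
    ∑ a, (pd a V x * fld ψ u a x - pd a (fld ψ u a) x) = - Lop ψ u x := by
  have hdiv : ∀ k, ∑ b, (pd b (fun y => tau ψ y b k) x - tau ψ x b k * pd b V x) = - x k :=
    rad_div h hx
  have e1 : ∀ a, pd a V x * fld ψ u a x - pd a (fld ψ u a) x =
      ∑ k, (-(pd a (fun y => tau ψ y a k) x - tau ψ x a k * pd a V x) * pd k u x
        - tau ψ x a k * hess u x a k) := by
    intro a
    rw [ae814_pd_fld hx hu]
    show pd a V x * ∑ k, tau ψ x a k * pd k u x - _ = _
    rw [Finset.mul_sum, ← Finset.sum_sub_distrib]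
    exact Finset.sum_congr rfl fun k _ => by ring
  rw [Finset.sum_congr rfl fun a _ => e1 a]
  simp only [Finset.sum_sub_distrib]
  have e2 : ∑ a, ∑ k, -(pd a (fun y => tau ψ y a k) x - tau ψ x a k * pd a V x) * pd k u x =
      ∑ k, x k * pd k u x := by
    rw [Finset.sum_comm]
    refine Finset.sum_congr rfl fun k _ => ?_
    rw [← Finset.sum_mul, Finset.sum_neg_distrib, hdiv k, neg_neg]
  rw [e2]
  unfold Lop
  ring

/-- (E7) -/
theorem ae_E7 (h : MM ψ V c C M) (hx : Good ψ x) {u : E n → ℝ} (hu : ContDiff ℝ (⊤ : ℕ∞) u)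
    (e b : Fin n) :
    ∑ a, tau ψ x e a * pd a (fld ψ u b) x = ∑ a, tau ψ x b a * pd a (fld ψ u e) x := by
  have key : ∀ e b : Fin n, ∑ a, tau ψ x e a * pd a (fld ψ u b) x =
      (∑ k, (∑ a, tau ψ x e a * pd a (fun y => tau ψ y b k) x) * pd k u x) +
        ∑ a, ∑ k, tau ψ x e a * tau ψ x b k * hess u x a k := by
    intro e b
    simp only [Finset.sum_mul]
    rw [Finset.sum_comm, ← Finset.sum_add_distrib]
    refine Finset.sum_congr rfl fun a _ => ?_
    rw [ae814_pd_fld hx hu, Finset.mul_sum, ← Finset.sum_add_distrib]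
    exact Finset.sum_congr rfl fun k _ => by ring
  rw [key e b, key b e]
  congr 1
  · exact Finset.sum_congr rfl fun k _ => by rw [rad_T h hx e b k]
  · rw [Finset.sum_comm]
    refine Finset.sum_congr rfl fun k _ => Finset.sum_congr rfl fun a _ => ?_
    rw [ae814_hess_symm hu x a k]
    ring

/-- (E3) -/
theorem ae_E3 (h : MM ψ V c C M) (hx : Good ψ x) {F : E n → ℝ} (hF : ContDiff ℝ (⊤ : ℕ∞) F)
    (b : Fin n) :
    ∑ d, (x d * Uf ψ F b d x - Dd ψ d (Uf ψ F b d) x) =
      - fld ψ (fun z => Lop ψ F z + F z) b x := by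
  have hdF : ∀ k, DifferentiableAt ℝ (pd k F) x := fun k => ae814_cd_diff (ae814_cd_pd hF k) x
  have hdN : ∀ i j, DifferentiableAt ℝ (fun y => hess F y i j) x := fun i j =>
    ae814_cd_diff (ae814_cd_pd (ae814_cd_pd hF j) i) x
  have hdF0 : DifferentiableAt ℝ F x := ae814_cd_diff hF x
  -- total symmetry of the third derivatives
  have s1 : ∀ k i j, pd k (fun y => hess F y i j) x = pd k (fun y => hess F y j i) x := by
    intro k i j
    congr 1
    funext y
    exact ae814_hess_symm hF y i j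
  have s2 : ∀ k i j, pd k (fun y => hess F y i j) x = pd i (fun y => hess F y k j) x := by
    intro k i j
    exact ae814_hess_symm (ae814_cd_pd hF j) x k i
  -- derivative of `LF + F`
  have e1 : ∀ k, pd k (fun z => Lop ψ F z + F z) x =
      (∑ i, ∑ j, (pd k (fun y => tau ψ y i j) x * hess F x i j +
        tau ψ x i j * pd k (fun y => hess F y i j) x)) - ∑ i, x i * hess F x k i := by
    intro k
    have d1 : ∀ i j, DifferentiableAt ℝ (fun y => tau ψ y i j * hess F y i j) x := fun i j =>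
      (hx.2 i j).fun_mul (hdN i j)
    have d2 : ∀ i, DifferentiableAt ℝ (fun y => ∑ j, tau ψ y i j * hess F y i j) x := fun i =>
      DifferentiableAt.fun_sum fun j _ => d1 i j
    have d3 : DifferentiableAt ℝ (fun y => ∑ i, ∑ j, tau ψ y i j * hess F y i j) x :=
      DifferentiableAt.fun_sum fun i _ => d2 i
    have d4 : ∀ i, DifferentiableAt ℝ (fun y : E n => y i * pd i F y) x := fun i =>
      (rad_diff_coord i x).fun_mul (hdF i)
    have d5 : DifferentiableAt ℝ (fun y : E n => ∑ i, y i * pd i F y) x :=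
      DifferentiableAt.fun_sum fun i _ => d4 i
    have e2 : (fun z => Lop ψ F z + F z) = fun y =>
        ((∑ i, ∑ j, tau ψ y i j * hess F y i j) - ∑ i, y i * pd i F y) + F y := rfl
    rw [e2, rpd_add (d3.fun_sub d5) hdF0, rpd_sub d3 d5, rpd_sum fun i _ => d2 i,
      rpd_sum fun i _ => d4 i]
    have e3 : ∀ i, pd k (fun y => ∑ j, tau ψ y i j * hess F y i j) x =
        ∑ j, (pd k (fun y => tau ψ y i j) x * hess F x i j +
          tau ψ x i j * pd k (fun y => hess F y i j) x) := by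
      intro i
      rw [rpd_sum fun j _ => d1 i j]
      exact Finset.sum_congr rfl fun j _ => rpd_mul (hx.2 i j) (hdN i j)
    have e4 : ∀ i, pd k (fun y : E n => y i * pd i F y) x =
        (if i = k then 1 else 0) * pd i F x + x i * hess F x k i := by
      intro i
      rw [rpd_mul (rad_diff_coord i x) (hdF i), rpd_coord]
      rfl
    rw [Finset.sum_congr rfl fun i _ => e3 i, Finset.sum_congr rfl fun i _ => e4 i,
      Finset.sum_add_distrib]
    simp only [ite_mul, one_mul, zero_mul, Finset.sum_ite_eq', Finset.mem_univ, if_true]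
    ring
  -- right hand side
  have r1 : fld ψ (fun z => Lop ψ F z + F z) b x =
      (∑ k, ∑ i, ∑ j, tau ψ x b k * (pd k (fun y => tau ψ y i j) x * hess F x i j)) +
      (∑ k, ∑ i, ∑ j, tau ψ x b k * (tau ψ x i j * pd k (fun y => hess F y i j) x)) -
      ∑ k, ∑ i, tau ψ x b k * (x i * hess F x k i) := by
    show ∑ k, tau ψ x b k * pd k (fun z => Lop ψ F z + F z) x = _
    rw [← Finset.sum_add_distrib, ← Finset.sum_sub_distrib]
    refine Finset.sum_congr rfl fun k _ => ?_
    rw [e1 k]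
    simp only [Finset.sum_add_distrib, mul_sub, mul_add, Finset.mul_sum]
  -- left hand side
  have l1 : ∑ d, (x d * Uf ψ F b d x - Dd ψ d (Uf ψ F b d) x) =
      (∑ k, ∑ i, tau ψ x b k * (x i * hess F x k i)) -
      (∑ d, ∑ k, (∑ e, tau ψ x d e * pd e (fun y => tau ψ y b k) x) * hess F x k d) -
      ∑ d, ∑ e, ∑ k, tau ψ x d e * (tau ψ x b k * pd e (fun y => hess F y k d) x) := by
    have f1 : ∑ k, ∑ i, tau ψ x b k * (x i * hess F x k i) = ∑ d, x d * Uf ψ F b d x := by
      rw [Finset.sum_comm]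
      refine Finset.sum_congr rfl fun d _ => ?_
      show _ = x d * ∑ k, tau ψ x b k * hess F x k d
      rw [Finset.mul_sum]
      exact Finset.sum_congr rfl fun k _ => by ring
    rw [f1, ← Finset.sum_sub_distrib, ← Finset.sum_sub_distrib]
    refine Finset.sum_congr rfl fun d _ => ?_
    have f2 : Dd ψ d (Uf ψ F b d) x =
        (∑ k, (∑ e, tau ψ x d e * pd e (fun y => tau ψ y b k) x) * hess F x k d) +
        ∑ e, ∑ k, tau ψ x d e * (tau ψ x b k * pd e (fun y => hess F y k d) x) := by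
      show ∑ e, tau ψ x d e * pd e (Uf ψ F b d) x = _
      simp only [Finset.sum_mul]
      rw [Finset.sum_comm, ← Finset.sum_add_distrib]
      refine Finset.sum_congr rfl fun e _ => ?_
      rw [ae814_pd_Uf hx hF, Finset.mul_sum, ← Finset.sum_add_distrib]
      exact Finset.sum_congr rfl fun k _ => by ring
    rw [f2]
    ring
  -- comparison
  have c1 : ∑ d, ∑ k, (∑ e, tau ψ x d e * pd e (fun y => tau ψ y b k) x) * hess F x k d =
      ∑ k, ∑ i, ∑ j, tau ψ x b k * (pd k (fun y => tau ψ y i j) x * hess F x i j) := by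
    have g1 : ∀ d k, (∑ e, tau ψ x d e * pd e (fun y => tau ψ y b k) x) * hess F x k d =
        ∑ e, tau ψ x b e * (pd e (fun y => tau ψ y d k) x * hess F x d k) := by
      intro d k
      rw [rad_T h hx d b k, Finset.sum_mul, ae814_hess_symm hF x k d]
      exact Finset.sum_congr rfl fun e _ => by ring
    rw [Finset.sum_congr rfl fun d _ => Finset.sum_congr rfl fun k _ => g1 d k]
    calc ∑ d, ∑ k, ∑ e, tau ψ x b e * (pd e (fun y => tau ψ y d k) x * hess F x d k)
        = ∑ d, ∑ e, ∑ k, tau ψ x b e * (pd e (fun y => tau ψ y d k) x * hess F x d k) :=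
          Finset.sum_congr rfl fun d _ => Finset.sum_comm
      _ = ∑ e, ∑ d, ∑ k, tau ψ x b e * (pd e (fun y => tau ψ y d k) x * hess F x d k) :=
          Finset.sum_comm
  have c2 : ∑ d, ∑ e, ∑ k, tau ψ x d e * (tau ψ x b k * pd e (fun y => hess F y k d) x) =
      ∑ k, ∑ i, ∑ j, tau ψ x b k * (tau ψ x i j * pd k (fun y => hess F y i j) x) := by
    have g1 : ∀ d e k, tau ψ x d e * (tau ψ x b k * pd e (fun y => hess F y k d) x) =
        tau ψ x b k * (tau ψ x d e * pd k (fun y => hess F y d e) x) := by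
      intro d e k
      rw [s2 e k d, s1 k e d]
      ring
    calc ∑ d, ∑ e, ∑ k, tau ψ x d e * (tau ψ x b k * pd e (fun y => hess F y k d) x)
        = ∑ d, ∑ e, ∑ k, tau ψ x b k * (tau ψ x d e * pd k (fun y => hess F y d e) x) :=
          Finset.sum_congr rfl fun d _ => Finset.sum_congr rfl fun e _ =>
            Finset.sum_congr rfl fun k _ => g1 d e k
      _ = ∑ d, ∑ k, ∑ e, tau ψ x b k * (tau ψ x d e * pd k (fun y => hess F y d e) x) :=
          Finset.sum_congr rfl fun d _ => Finset.sum_comm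
      _ = ∑ k, ∑ d, ∑ e, tau ψ x b k * (tau ψ x d e * pd k (fun y => hess F y d e) x) :=
          Finset.sum_comm
  rw [l1, r1, c1, c2]
  ring

end Vale.Agent.P227.M.K814
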