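import Vale.Agent.P227.M.ID.K.AlgPos

/-! # P227/M/ID/K: `tr ((J - N τ)²) ≥ 0` when `τ J` is symmetric -/

namespace Vale.Agent.P227.M.KAlg

open Matrix
open scoped MatrixOrder ComplexOrder

variable {n : ℕ} {t N J : Matrix (Fin n) (Fin n) ℝ}

/-- `tr (Q²) ≥ 0` when `t Q` is symmetric, `t` positive definite -/
theorem trace_sq_nonneg {Q : Matrix (Fin n) (Fin n) ℝ} (ht : t.PosDef) (hQ : (t * Q).IsSymm) :
    0 ≤ (Q * Q).trace := by
  obtain ⟨B, hB⟩ := CStarAlgebra.nonneg_iff_eq_star_mul_self.mp ht.posSemidef.nonneg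
  have hB' : t = Bᵀ * B := by rw [hB, Matrix.star_eq_conjTranspose, Matrix.conjTranspose_eq_transpose_of_trivial]
  have hdet : t.det ≠ 0 := ht.det_pos.ne'
  have hdB : IsUnit B.det := by
    rw [hB', Matrix.det_mul, Matrix.det_transpose] at hdet
    exact isUnit_iff_ne_zero.2 (left_ne_zero_of_mul hdet)
  -- `R = B Q B⁻¹` is symmetric
  set R : Matrix (Fin n) (Fin n) ℝ := B * Q * B⁻¹ with hR
  have h1 : Rᵀ = R := by
    have h2 : Bᵀ * B * Q = Qᵀ * (Bᵀ * B) := by
      have h := hQ.eq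
      rw [hB', Matrix.transpose_mul, Matrix.transpose_mul, Matrix.transpose_transpose] at h
      exact h.symm
    have h3 : B * Q = (Bᵀ)⁻¹ * Qᵀ * Bᵀ * B := by
      have hdBt : IsUnit Bᵀ.det := by rwa [Matrix.det_transpose]
      calc B * Q = (Bᵀ)⁻¹ * (Bᵀ * B * Q) := by
            rw [Matrix.mul_assoc, ← Matrix.mul_assoc (Bᵀ)⁻¹, Matrix.nonsing_inv_mul _ hdBt, Matrix.one_mul]
        _ = _ := by rw [h2]; simp only [Matrix.mul_assoc]
    rw [hR, h3, Matrix.mul_assoc _ B B⁻¹, Matrix.mul_nonsing_inv B hdB, Matrix.mul_one]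
    simp only [Matrix.transpose_mul, Matrix.transpose_transpose, Matrix.transpose_nonsing_inv]
    rw [← Matrix.mul_assoc, h3, Matrix.mul_assoc _ B B⁻¹, Matrix.mul_nonsing_inv B hdB, Matrix.mul_one]
  have h4 : (Q * Q).trace = (R * Rᵀ).trace := by
    rw [h1, hR]
    calc (Q * Q).trace = (Q * (B⁻¹ * B) * Q * (B⁻¹ * B)).trace := by
          rw [Matrix.nonsing_inv_mul B hdB, Matrix.mul_one, Matrix.mul_one]
      _ = ((Q * (B⁻¹ * B) * Q * B⁻¹) * B).trace := by simp only [Matrix.mul_assoc]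
      _ = (B * (Q * (B⁻¹ * B) * Q * B⁻¹)).trace := Matrix.trace_mul_comm _ _
      _ = _ := by simp only [Matrix.mul_assoc]
  rw [h4]
  exact trace_mul_transpose_nonneg R

theorem trace_J (ht : t.PosDef) (hN : N.IsSymm) (hJ : (t * J).IsSymm) :
    2 * (J * (N * t)).trace - (N * t * (N * t)).trace ≤ (J * J).trace := by
  have ht' : t.IsSymm := by
    have h := ht.isHermitian
    rw [Matrix.IsHermitian, Matrix.conjTranspose_eq_transpose_of_trivial] at h
    exact h
  have h1 : (t * (J - N * t)).IsSymm := by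
    have h2 : (t * (N * t)).IsSymm := by
      rw [Matrix.IsSymm, Matrix.transpose_mul, Matrix.transpose_mul, ht'.eq, hN.eq, Matrix.mul_assoc]
    rw [Matrix.mul_sub]
    exact hJ.sub h2
  have h3 := trace_sq_nonneg ht h1
  have h4 : ((J - N * t) * (J - N * t)).trace =
      (J * J).trace - 2 * (J * (N * t)).trace + (N * t * (N * t)).trace := by
    rw [Matrix.sub_mul, Matrix.mul_sub, Matrix.mul_sub, Matrix.trace_sub, Matrix.trace_sub, Matrix.trace_sub,
      Matrix.trace_mul_comm (N * t) J]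
    ring
  rw [h4] at h3
  linarith

/-- index form (`AlgJ` of helper814) -/
theorem algJ (ht : t.PosDef) (hN : N.IsSymm) (hJ : (t * J).IsSymm) :
    2 * (∑ a, ∑ b, J a b * (t * N) a b) - ∑ a, ∑ b, ∑ d, t d a * (t * N) b d * N a b
      ≤ ∑ a, ∑ b, J a b * J b a := by
  have ht' : t.IsSymm := by
    have h := ht.isHermitian
    rw [Matrix.IsHermitian, Matrix.conjTranspose_eq_transpose_of_trivial] at h
    exact h
  have htN : (t * N)ᵀ = N * t := by rw [Matrix.transpose_mul, ht'.eq, hN.eq]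
  have h := trace_J ht hN hJ
  have e1 : (J * (N * t)).trace = ∑ a, ∑ b, J a b * (t * N) a b := by
    rw [← htN, Matrix.trace]
    refine Finset.sum_congr rfl fun a _ => ?_
    rw [Matrix.diag_apply, Matrix.mul_apply]
    exact Finset.sum_congr rfl fun b _ => by rw [Matrix.transpose_apply]
  have e2 : (J * J).trace = ∑ a, ∑ b, J a b * J b a := by
    rw [Matrix.trace]
    refine Finset.sum_congr rfl fun a _ => ?_
    rw [Matrix.diag_apply, Matrix.mul_apply]
  have e3 : (N * t * (N * t)).trace = ∑ a, ∑ b, ∑ d, t d a * (t * N) b d * N a b := by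
    rw [Matrix.mul_assoc, Matrix.trace]
    refine Finset.sum_congr rfl fun a _ => ?_
    rw [Matrix.diag_apply, Matrix.mul_apply]
    refine Finset.sum_congr rfl fun b _ => ?_
    rw [← Matrix.mul_assoc, Matrix.mul_apply, Finset.mul_sum]
    exact Finset.sum_congr rfl fun d _ => by ring
  rw [e1, e2, e3] at h
  exact h

end Vale.Agent.P227.M.KAlg
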