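import Mathlib

/-! # P227/M/ID/K: the pointwise positivity (leaf (c) of note 10900)

`t = τ` positive definite, `p e = ∂_e τ`, `N = D²F`, `ν e = ∂_e N`, `X e = ∂_e (τ N)`. -/

namespace Vale.Agent.P227.M.KAlg

open Matrix
open scoped MatrixOrder ComplexOrder

variable {n : ℕ}

/-- `X e = ∂_e (τ N)` -/
def X (t N : Matrix (Fin n) (Fin n) ℝ) (p ν : Fin n → Matrix (Fin n) (Fin n) ℝ) (e : Fin n) :
    Matrix (Fin n) (Fin n) ℝ := p e * N + t * ν e

theorem trace_mul_transpose_nonneg (M : Matrix (Fin n) (Fin n) ℝ) : 0 ≤ (M * Mᵀ).trace := by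
  rw [Matrix.trace]
  refine Finset.sum_nonneg fun i _ => ?_
  rw [Matrix.diag_apply, Matrix.mul_apply]
  exact Finset.sum_nonneg fun j _ => by rw [Matrix.transpose_apply]; exact mul_self_nonneg _

theorem trace_sym_nonneg (T : Matrix (Fin n) (Fin n) ℝ) : 0 ≤ (T * (T + Tᵀ)).trace := by
  have h1 := trace_mul_transpose_nonneg (T + Tᵀ)
  have h2 : (T + Tᵀ)ᵀ = T + Tᵀ := by rw [Matrix.transpose_add, Matrix.transpose_transpose, add_comm]
  rw [h2] at h1
  have h3 : (Tᵀ * (T + Tᵀ)).trace = (T * (T + Tᵀ)).trace := by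
    rw [← Matrix.trace_transpose (Tᵀ * (T + Tᵀ)), Matrix.transpose_mul, Matrix.transpose_transpose, h2,
      Matrix.trace_mul_comm]
  rw [Matrix.add_mul, Matrix.trace_add, h3] at h1
  linarith

/-- bilinear contraction with `t = Bᵀ B` -/
theorem contract (t B : Matrix (Fin n) (Fin n) ℝ) (hB : t = Bᵀ * B)
    (R S : Fin n → Matrix (Fin n) (Fin n) ℝ) :
    ∑ e, ∑ a, t e a * (R e * S a).trace = ∑ i, ((∑ e, B i e • R e) * (∑ a, B i a • S a)).trace := by
  have h1 : ∀ i, ((∑ e, B i e • R e) * (∑ a, B i a • S a)).trace =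
      ∑ e, ∑ a, B i e * B i a * (R e * S a).trace := by
    intro i
    rw [Finset.sum_mul, Matrix.trace_sum]
    refine Finset.sum_congr rfl fun e _ => ?_
    rw [Finset.mul_sum, Matrix.trace_sum]
    refine Finset.sum_congr rfl fun a _ => ?_
    rw [Matrix.smul_mul, Matrix.mul_smul, Matrix.trace_smul, Matrix.trace_smul, smul_eq_mul, smul_eq_mul, mul_assoc]
  simp_rw [h1]
  rw [Finset.sum_comm (s := (Finset.univ : Finset (Fin n))) (t := Finset.univ)
    (f := fun i e => ∑ a, B i e * B i a * (R e * S a).trace)]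
  refine Finset.sum_congr rfl fun e _ => ?_
  rw [Finset.sum_comm (s := (Finset.univ : Finset (Fin n))) (t := Finset.univ)
    (f := fun i a => B i e * B i a * (R e * S a).trace)]
  refine Finset.sum_congr rfl fun a _ => ?_
  rw [hB, Matrix.mul_apply, Finset.sum_mul]
  refine Finset.sum_congr rfl fun i _ => ?_
  rw [Matrix.transpose_apply]

variable {t N : Matrix (Fin n) (Fin n) ℝ} {p ν : Fin n → Matrix (Fin n) (Fin n) ℝ}

/-- trace form of the positivity -/
theorem traceForm (ht : t.PosDef) (hN : N.IsSymm) (hp : ∀ a, (p a).IsSymm) (hν : ∀ a, (ν a).IsSymm) :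
    0 ≤ 2 * ∑ e, ∑ a, t e a * (X t N p ν e * t * ν a).trace +
      ∑ e, ∑ a, t e a * ((X t N p ν e * (t * N) + (t * N) * X t N p ν e) * p a * t⁻¹).trace := by
  obtain ⟨B, hB⟩ := CStarAlgebra.nonneg_iff_eq_star_mul_self.mp ht.posSemidef.nonneg
  have hB' : t = Bᵀ * B := by rw [hB, Matrix.star_eq_conjTranspose, Matrix.conjTranspose_eq_transpose_of_trivial]
  have hdet : t.det ≠ 0 := ht.det_pos.ne'
  have hdB : IsUnit B.det := by
    rw [hB', Matrix.det_mul, Matrix.det_transpose] at hdet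
    exact isUnit_iff_ne_zero.2 (left_ne_zero_of_mul hdet)
  -- `C = (Bᵀ)⁻¹`
  set C : Matrix (Fin n) (Fin n) ℝ := (B⁻¹)ᵀ with hC
  have hBC : Bᵀ * C = 1 := by
    rw [hC, ← Matrix.transpose_mul, Matrix.nonsing_inv_mul B hdB, Matrix.transpose_one]
  have hCB : C * Bᵀ = 1 := by
    rw [hC, ← Matrix.transpose_mul, Matrix.mul_nonsing_inv B hdB, Matrix.transpose_one]
  have hCtB : Cᵀ * B = 1 := by rw [hC, Matrix.transpose_transpose, Matrix.nonsing_inv_mul B hdB]
  have hBCt : B * Cᵀ = 1 := by rw [hC, Matrix.transpose_transpose, Matrix.mul_nonsing_inv B hdB]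
  have hinv : t⁻¹ = Cᵀ * C := by
    refine Matrix.inv_eq_right_inv ?_
    rw [hB', Matrix.mul_assoc, ← Matrix.mul_assoc B, hBCt, Matrix.one_mul, hBC]
  -- hat variables
  set Nh : Matrix (Fin n) (Fin n) ℝ := B * N * Bᵀ with hNh
  set q : Fin n → Matrix (Fin n) (Fin n) ℝ := fun e => C * p e * Cᵀ with hq
  set a' : Fin n → Matrix (Fin n) (Fin n) ℝ := fun e => B * ν e * Bᵀ with ha'
  set T : Fin n → Matrix (Fin n) (Fin n) ℝ := fun e => q e * Nh + a' e with hT
  have hX : ∀ e, X t N p ν e = Bᵀ * T e * C := by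
    intro e
    simp only [X, hT, hq, ha', hNh, Matrix.mul_add, Matrix.add_mul]
    congr 1
    · calc p e * N = (Bᵀ * C) * p e * (Cᵀ * B) * N * (Bᵀ * C) := by
            rw [hBC, hCtB, Matrix.one_mul, Matrix.mul_one, Matrix.mul_one]
        _ = _ := by simp only [Matrix.mul_assoc]
    · calc t * ν e = (Bᵀ * B) * ν e * (Bᵀ * C) := by rw [hBC, Matrix.mul_one, ← hB']
        _ = _ := by simp only [Matrix.mul_assoc]
  have hU : t * N = Bᵀ * Nh * C := by
    calc t * N = (Bᵀ * B) * N * (Bᵀ * C) := by rw [hBC, Matrix.mul_one, ← hB']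
      _ = _ := by simp only [hNh, Matrix.mul_assoc]
  have h1 : ∀ e a, (X t N p ν e * t * ν a).trace = (T e * a' a).trace := by
    intro e a
    calc (X t N p ν e * t * ν a).trace = (Bᵀ * (T e * (C * Bᵀ) * B * ν a)).trace := by
          rw [hX e]
          conv_lhs => rw [hB']
          simp only [Matrix.mul_assoc]
      _ = ((T e * (C * Bᵀ) * B * ν a) * Bᵀ).trace := Matrix.trace_mul_comm _ _
      _ = _ := by
          rw [hCB, Matrix.mul_one]
          simp only [ha', Matrix.mul_assoc]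
  have h2 : ∀ e a, ((X t N p ν e * (t * N) + (t * N) * X t N p ν e) * p a * t⁻¹).trace =
      ((T e * Nh + Nh * T e) * q a).trace := by
    intro e a
    have e1 : X t N p ν e * (t * N) + (t * N) * X t N p ν e = Bᵀ * (T e * Nh + Nh * T e) * C := by
      rw [hX e, hU]
      calc Bᵀ * T e * C * (Bᵀ * Nh * C) + Bᵀ * Nh * C * (Bᵀ * T e * C)
          = Bᵀ * T e * (C * Bᵀ) * Nh * C + Bᵀ * Nh * (C * Bᵀ) * T e * C := by simp only [Matrix.mul_assoc]
        _ = _ := by
            rw [hCB, Matrix.mul_one, Matrix.mul_one]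
            simp only [Matrix.mul_add, Matrix.add_mul, Matrix.mul_assoc]
    rw [e1, hinv]
    calc (Bᵀ * (T e * Nh + Nh * T e) * C * p a * (Cᵀ * C)).trace
        = (Bᵀ * ((T e * Nh + Nh * T e) * (C * p a * Cᵀ) * C)).trace := by simp only [Matrix.mul_assoc]
      _ = ((T e * Nh + Nh * T e) * (C * p a * Cᵀ) * C * Bᵀ).trace := Matrix.trace_mul_comm _ _
      _ = _ := by
          rw [Matrix.mul_assoc _ C Bᵀ, hCB, Matrix.mul_one]
  simp_rw [h1, h2]
  rw [contract t B hB' T a', contract t B hB' (fun e => T e * Nh + Nh * T e) q, Finset.mul_sum, ← Finset.sum_add_distrib]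
  refine Finset.sum_nonneg fun i _ => ?_
  have hNs : Nhᵀ = Nh := by
    rw [hNh, Matrix.transpose_mul, Matrix.transpose_mul, Matrix.transpose_transpose, hN.eq, Matrix.mul_assoc]
  have hqs : ∀ e, (q e)ᵀ = q e := by
    intro e
    simp only [hq, Matrix.transpose_mul, Matrix.transpose_transpose, (hp e).eq, Matrix.mul_assoc]
  have has : ∀ e, (a' e)ᵀ = a' e := by
    intro e
    simp only [ha', Matrix.transpose_mul, Matrix.transpose_transpose, (hν e).eq, Matrix.mul_assoc]
  set qi := ∑ e, B i e • q e with hqi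
  set ai := ∑ e, B i e • a' e with hai
  have hTi : ∑ e, B i e • T e = qi * Nh + ai := by
    simp only [hqi, hai, hT, Finset.sum_mul, smul_add, Finset.sum_add_distrib, Matrix.smul_mul]
  have hTN : ∑ e, B i e • (T e * Nh + Nh * T e) = (qi * Nh + ai) * Nh + Nh * (qi * Nh + ai) := by
    rw [← hTi]
    simp only [Finset.sum_mul, Finset.mul_sum, smul_add, Finset.sum_add_distrib, Matrix.smul_mul, Matrix.mul_smul]
  have hqis : qiᵀ = qi := by
    simp only [hqi, Matrix.transpose_sum, Matrix.transpose_smul, hqs]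
  have hais : aiᵀ = ai := by
    simp only [hai, Matrix.transpose_sum, Matrix.transpose_smul, has]
  rw [hTi, hTN]
  set Ti := qi * Nh + ai with hTi'
  have hTt : Tiᵀ = Nh * qi + ai := by
    rw [hTi', Matrix.transpose_add, Matrix.transpose_mul, hNs, hqis, hais]
  have h5 : 2 * (Ti * ai).trace + ((Ti * Nh + Nh * Ti) * qi).trace = (Ti * (Ti + Tiᵀ)).trace := by
    have e1 : ((Ti * Nh + Nh * Ti) * qi).trace = (Ti * (Nh * qi)).trace + (Ti * (qi * Nh)).trace := by
      rw [Matrix.add_mul, Matrix.trace_add]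
      congr 1
      · rw [Matrix.mul_assoc]
      · rw [Matrix.mul_assoc, Matrix.trace_mul_comm, Matrix.mul_assoc]
    have e2 : Ti * (Ti + Tiᵀ) = Ti * (qi * Nh) + Ti * ai + (Ti * (Nh * qi) + Ti * ai) := by
      rw [hTt, Matrix.mul_add, Matrix.mul_add]
      congr 1
      conv_lhs => rw [hTi']
      rw [Matrix.mul_add]
    rw [e1, e2, Matrix.trace_add, Matrix.trace_add, Matrix.trace_add]
    ring
  rw [h5]
  exact trace_sym_nonneg Ti

/-- **Leaf (c)**: pointwise positivity -/
theorem algPos (ht : t.PosDef) (hN : N.IsSymm) (hp : ∀ a, (p a).IsSymm) (hν : ∀ a, (ν a).IsSymm)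
    (hν1 : ∀ a b c, ν a b c = ν b a c)
    (hP : ∀ a b d, ∑ c, t a c * p c b d = ∑ c, t b c * p c a d) :
    0 ≤ 2 * ∑ a, ∑ b, ∑ d, (∑ e, t a e * X t N p ν e b d) * (∑ f, t d f * ν f a b) +
      ∑ a, ∑ d, ∑ e, p a d e * (X t N p ν e * (t * N) + (t * N) * X t N p ν e) a d := by
  have ht' : t.IsSymm := by
    have h := ht.isHermitian
    rw [Matrix.IsHermitian, Matrix.conjTranspose_eq_transpose_of_trivial] at h
    exact h
  have hts : ∀ a b, t a b = t b a := fun a b => by
    conv_lhs => rw [← ht'.eq]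
    rfl
  have hps : ∀ e a b, p e a b = p e b a := fun e a b => by
    conv_lhs => rw [← (hp e).eq]
    rfl
  have hνs : ∀ e a b, ν e a b = ν e b a := fun e a b => by
    conv_lhs => rw [← (hν e).eq]
    rfl
  have hu : IsUnit t.det := isUnit_iff_ne_zero.2 ht.det_pos.ne'
  -- term 1
  have h1 : ∑ a, ∑ b, ∑ d, (∑ e, t a e * X t N p ν e b d) * (∑ f, t d f * ν f a b) =
      ∑ e, ∑ a, t e a * (X t N p ν e * t * ν a).trace := by
    rw [Finset.sum_comm (f := fun e a => t e a * (X t N p ν e * t * ν a).trace)]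
    refine Finset.sum_congr rfl fun a _ => ?_
    have e1 : ∀ e, (X t N p ν e * t * ν a).trace = ∑ b, ∑ d, X t N p ν e b d * ∑ f, t d f * ν f a b := by
      intro e
      rw [Matrix.mul_assoc, Matrix.trace]
      refine Finset.sum_congr rfl fun b _ => ?_
      rw [Matrix.diag_apply, Matrix.mul_apply]
      refine Finset.sum_congr rfl fun d _ => ?_
      rw [Matrix.mul_apply]
      congr 1
      refine Finset.sum_congr rfl fun f _ => ?_
      rw [hν1 a f b]
    have e4 : ∀ e, t e a * (X t N p ν e * t * ν a).trace =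
        ∑ b, ∑ d, t e a * (X t N p ν e b d * ∑ f, t d f * ν f a b) := by
      intro e
      rw [e1 e, Finset.mul_sum]
      exact Finset.sum_congr rfl fun b _ => by rw [Finset.mul_sum]
    calc ∑ b, ∑ d, (∑ e, t a e * X t N p ν e b d) * (∑ f, t d f * ν f a b)
        = ∑ b, ∑ d, ∑ e, t e a * (X t N p ν e b d * ∑ f, t d f * ν f a b) := by
          refine Finset.sum_congr rfl fun b _ => Finset.sum_congr rfl fun d _ => ?_
          rw [Finset.sum_mul]
          refine Finset.sum_congr rfl fun e _ => ?_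
          rw [hts e a, mul_assoc]
      _ = ∑ b, ∑ e, ∑ d, t e a * (X t N p ν e b d * ∑ f, t d f * ν f a b) :=
          Finset.sum_congr rfl fun b _ => Finset.sum_comm
      _ = ∑ e, ∑ b, ∑ d, t e a * (X t N p ν e b d * ∑ f, t d f * ν f a b) := Finset.sum_comm
      _ = _ := Finset.sum_congr rfl fun e _ => (e4 e).symm
  -- term 2
  have hP2 : ∀ a d e, p a d e = ∑ e', t e e' * (p e' * t⁻¹) d a := by
    intro a d e
    have e2 : ∀ c, ∑ e', t e e' * p e' d c = ∑ e', t c e' * p e' d e := by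
      intro c
      calc ∑ e', t e e' * p e' d c = ∑ e', t e e' * p e' c d := Finset.sum_congr rfl fun i _ => by rw [hps]
        _ = ∑ e', t c e' * p e' e d := hP e c d
        _ = _ := Finset.sum_congr rfl fun i _ => by rw [hps]
    calc p a d e = ∑ c, (t⁻¹ * t) a c * p c d e := by
          rw [Matrix.nonsing_inv_mul t hu]
          simp [Matrix.one_apply]
      _ = ∑ c', t⁻¹ a c' * ∑ c, t c' c * p c d e := by
          simp_rw [Matrix.mul_apply, Finset.sum_mul, Finset.mul_sum]
          rw [Finset.sum_comm]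
          exact Finset.sum_congr rfl fun i _ => Finset.sum_congr rfl fun j _ => by ring
      _ = ∑ c', t⁻¹ a c' * ∑ e', t e e' * p e' d c' := by
          refine Finset.sum_congr rfl fun c' _ => ?_
          rw [e2 c']
      _ = ∑ e', t e e' * (p e' * t⁻¹) d a := by
          have hinvs : ∀ i j, t⁻¹ i j = t⁻¹ j i := by
            intro i j
            have h := Matrix.transpose_nonsing_inv t
            rw [ht'.eq] at h
            conv_lhs => rw [← h]
            rfl
          simp_rw [Matrix.mul_apply, Finset.mul_sum]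
          rw [Finset.sum_comm]
          exact Finset.sum_congr rfl fun i _ => Finset.sum_congr rfl fun j _ => by rw [hinvs a j]; ring
  have h2 : ∑ a, ∑ d, ∑ e, p a d e * (X t N p ν e * (t * N) + (t * N) * X t N p ν e) a d =
      ∑ e, ∑ a, t e a * ((X t N p ν e * (t * N) + (t * N) * X t N p ν e) * p a * t⁻¹).trace := by
    set Y : Fin n → Matrix (Fin n) (Fin n) ℝ := fun e => X t N p ν e * (t * N) + (t * N) * X t N p ν e with hY
    have e3 : ∀ e e', (Y e * p e' * t⁻¹).trace = ∑ a, ∑ d, Y e a d * (p e' * t⁻¹) d a := by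
      intro e e'
      rw [Matrix.mul_assoc, Matrix.trace]
      exact Finset.sum_congr rfl fun a _ => by rw [Matrix.diag_apply, Matrix.mul_apply]
    calc ∑ a, ∑ d, ∑ e, p a d e * Y e a d
        = ∑ a, ∑ d, ∑ e, ∑ e', t e e' * (Y e a d * (p e' * t⁻¹) d a) := by
          refine Finset.sum_congr rfl fun a _ => Finset.sum_congr rfl fun d _ => Finset.sum_congr rfl fun e _ => ?_
          rw [hP2 a d e, Finset.sum_mul]
          exact Finset.sum_congr rfl fun e' _ => by ring
      _ = ∑ e, ∑ e', ∑ a, ∑ d, t e e' * (Y e a d * (p e' * t⁻¹) d a) := by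
          calc ∑ a, ∑ d, ∑ e, ∑ e', t e e' * (Y e a d * (p e' * t⁻¹) d a)
              = ∑ a, ∑ e, ∑ d, ∑ e', t e e' * (Y e a d * (p e' * t⁻¹) d a) :=
                Finset.sum_congr rfl fun a _ => Finset.sum_comm
            _ = ∑ e, ∑ a, ∑ d, ∑ e', t e e' * (Y e a d * (p e' * t⁻¹) d a) := Finset.sum_comm
            _ = ∑ e, ∑ a, ∑ e', ∑ d, t e e' * (Y e a d * (p e' * t⁻¹) d a) :=
                Finset.sum_congr rfl fun e _ => Finset.sum_congr rfl fun a _ => Finset.sum_comm
            _ = _ := Finset.sum_congr rfl fun e _ => Finset.sum_comm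
      _ = _ := by
          refine Finset.sum_congr rfl fun e _ => Finset.sum_congr rfl fun e' _ => ?_
          rw [e3 e e', Finset.mul_sum]
          exact Finset.sum_congr rfl fun a _ => by rw [Finset.mul_sum]
  rw [h1, h2]
  exact traceForm ht hN hp hν

end Vale.Agent.P227.M.KAlg
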