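import Vale.Agent.P227.M.ID.K.AlgStmt
import Vale.Agent.P227.M.ID.Pos

/-! # P227/M/ID/K : proof of the pointwise inequality `AlgQ` -/

namespace Vale.Agent.P227.M.K814

open Matrix Finset

/-- contraction with a sum of rank one matrices -/
theorem q_dec {n m : ℕ} {t : Matrix (Fin n) (Fin n) ℝ} {v : Fin m → Fin n → ℝ}
    (ht : ∀ a c, t a c = ∑ k, v k a * v k c) (A B : Fin n → Matrix (Fin n) (Fin n) ℝ) :
    ∑ a, ∑ e, t a e * (A e * B a).trace
      = ∑ k, ((∑ e, v k e • A e) * (∑ a, v k a • B a)).trace := by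
  have h1 : ∀ k, ((∑ e, v k e • A e) * (∑ a, v k a • B a)).trace
      = ∑ a, ∑ e, v k a * v k e * (A e * B a).trace := by
    intro k
    rw [Finset.mul_sum, trace_sum]
    refine Finset.sum_congr rfl fun a _ => ?_
    rw [Finset.sum_mul, trace_sum]
    refine Finset.sum_congr rfl fun e _ => ?_
    rw [Matrix.smul_mul, Matrix.mul_smul, trace_smul, trace_smul, smul_eq_mul, smul_eq_mul]
    ring
  simp_rw [h1]
  have h2 : ∑ k, ∑ a, ∑ e, v k a * v k e * (A e * B a).trace
      = ∑ a, ∑ e, ∑ k, v k a * v k e * (A e * B a).trace := by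
    rw [Finset.sum_comm]
    exact Finset.sum_congr rfl fun a _ => Finset.sum_comm
  rw [h2]
  refine Finset.sum_congr rfl fun a _ => Finset.sum_congr rfl fun e _ => ?_
  rw [ht, Finset.sum_mul]

theorem q_r {n : ℕ} (t : Fin n → Fin n → ℝ) (Y : Fin n → Fin n → Fin n → Fin n → ℝ) :
    ∑ a, ∑ b, ∑ d, ∑ e, t a e * Y a e b d = ∑ a, ∑ e, t a e * ∑ b, ∑ d, Y a e b d := by
  refine Finset.sum_congr rfl fun a _ => ?_
  simp_rw [Finset.mul_sum]
  calc ∑ b, ∑ d, ∑ e, t a e * Y a e b d = ∑ b, ∑ e, ∑ d, t a e * Y a e b d :=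
        Finset.sum_congr rfl fun b _ => Finset.sum_comm
    _ = ∑ e, ∑ b, ∑ d, t a e * Y a e b d := Finset.sum_comm

/-- the single term inequality -/
theorem q_one {n : ℕ} {t σ N p ν : Matrix (Fin n) (Fin n) ℝ} (ht : t.PosDef) (hts : t * σ = 1)
    (hN : N.IsSymm) (hp : p.IsSymm) (hν : ν.IsSymm) :
    0 ≤ ((p * N + t * ν) * (t * ν + (p * N + t * ν) + t * N * p * σ)).trace := by
  have htt : tᵀ = t := by
    have := ht.1
    rwa [IsHermitian, conjTranspose_eq_transpose_of_trivial] at this
  have hst : σ * t = 1 := mul_eq_one_comm.1 hts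
  have hσ : σ.PosSemidef := by
    have h1 : σ = t⁻¹ := (Matrix.inv_eq_right_inv hts).symm
    rw [h1]
    exact ht.inv.posSemidef
  have h0 := Vale.Agent.P227.M.ID.pair_nonneg hσ hst (p * N + t * ν)
  have hX : (p * N + t * ν)ᵀ = N * p + ν * t := by
    rw [transpose_add, transpose_mul, transpose_mul, htt, hN.eq, hp.eq, hν.eq]
  have e1 : (p * N + t * ν) * (t * ν + (p * N + t * ν) + t * N * p * σ)
      = (p * N + t * ν) * (p * N + t * ν) + (p * N + t * ν) * t * (N * p + ν * t) * σ := by
    have h2 : t * ν + t * N * p * σ = t * (N * p + ν * t) * σ := by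
      have h3 : t * (ν * t) * σ = t * ν := by
        rw [← Matrix.mul_assoc, Matrix.mul_assoc (t * ν) t σ, hts, Matrix.mul_one]
      rw [Matrix.mul_add, Matrix.add_mul, h3, ← Matrix.mul_assoc]
      abel
    have h4 : t * ν + (p * N + t * ν) + t * N * p * σ
        = (p * N + t * ν) + (t * ν + t * N * p * σ) := by abel
    rw [h4, h2, Matrix.mul_add]
    simp only [Matrix.mul_assoc]
  rw [e1, trace_add, ← hX, trace_mul_comm _ σ]
  have e2 : σ * ((p * N + t * ν) * t * (p * N + t * ν)ᵀ)
      = σ * (p * N + t * ν) * t * (p * N + t * ν)ᵀ := by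
    simp only [Matrix.mul_assoc]
  rw [e2]
  linarith

theorem algQ : AlgQ := by
  intro n t σ N p ν ht hts hN hp hcomm hν1 hν2
  obtain ⟨m, v, hv⟩ := Matrix.posSemidef_iff_eq_sum_vecMulVec.1 ht.posSemidef
  have htv : ∀ a c, t a c = ∑ k, v k a * v k c := by
    intro a c
    rw [hv, Matrix.sum_apply]
    refine Finset.sum_congr rfl fun k _ => ?_
    simp [vecMulVec_apply]
  have hst : σ * t = 1 := mul_eq_one_comm.1 hts
  have htt : ∀ a b, t a b = t b a := by
    intro a b
    have := ht.1
    rw [IsHermitian, conjTranspose_eq_transpose_of_trivial] at this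
    exact congrFun (congrFun this b) a
  -- (C1)
  have C1 : ∀ d a b, ∑ f, t d f * XX t N p ν f a b = ∑ f, t a f * XX t N p ν f d b := by
    intro d a b
    have h1 : ∀ d a, ∑ f, t d f * XX t N p ν f a b
        = ∑ g, (∑ f, t d f * p f a g) * N g b + ∑ f, ∑ g, t d f * (t a g * ν f g b) := by
      intro d a
      have h2 : ∑ g, (∑ f, t d f * p f a g) * N g b = ∑ f, ∑ g, t d f * (p f a g * N g b) := by
        rw [Finset.sum_comm]
        refine Finset.sum_congr rfl fun g _ => ?_
        rw [Finset.sum_mul]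
        refine Finset.sum_congr rfl fun f _ => ?_
        ring
      rw [h2, ← Finset.sum_add_distrib]
      refine Finset.sum_congr rfl fun f _ => ?_
      rw [XX, Matrix.add_apply, Matrix.mul_apply, Matrix.mul_apply, mul_add, Finset.mul_sum,
        Finset.mul_sum]
    rw [h1 d a, h1 a d]
    congr 1
    · refine Finset.sum_congr rfl fun g _ => ?_
      rw [hcomm d a g]
    · rw [Finset.sum_comm]
      refine Finset.sum_congr rfl fun g _ => Finset.sum_congr rfl fun f _ => ?_
      rw [hν1 f g b]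
      ring
  -- (C2)
  have C2 : ∀ e a b, XX t N p ν e a b = ∑ g, σ e g * ∑ f, t a f * XX t N p ν f g b := by
    intro e a b
    have h1 : ∑ g, σ e g * ∑ f, t a f * XX t N p ν f g b
        = ∑ f, (∑ g, σ e g * t g f) * XX t N p ν f a b := by
      simp_rw [C1 a _ b, Finset.mul_sum, Finset.sum_mul]
      rw [Finset.sum_comm]
      refine Finset.sum_congr rfl fun f _ => Finset.sum_congr rfl fun g _ => ?_
      ring
    rw [h1]
    have h2 : ∀ f, ∑ g, σ e g * t g f = if e = f then 1 else 0 := by
      intro f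
      rw [← Matrix.mul_apply, hst, Matrix.one_apply]
    simp [h2]
  have T1 : ∑ a, ∑ b, ∑ d, (∑ e, t a e * XX t N p ν e b d) * (∑ f, t d f * ν f a b)
      = ∑ a, ∑ e, t a e * (XX t N p ν e * (t * ν a)).trace := by
    have h1 : ∀ a e, (XX t N p ν e * (t * ν a)).trace
        = ∑ b, ∑ d, XX t N p ν e b d * ∑ f, t d f * ν f a b := by
      intro a e
      rw [ID.trace_mul_sum]
      refine Finset.sum_congr rfl fun b _ => Finset.sum_congr rfl fun d _ => ?_
      rw [Matrix.mul_apply]
      congr 1
      exact Finset.sum_congr rfl fun f _ => by rw [hν1 f a b]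
    simp_rw [h1]
    rw [← q_r t (fun a e b d => XX t N p ν e b d * ∑ f, t d f * ν f a b)]
    refine Finset.sum_congr rfl fun a _ => Finset.sum_congr rfl fun b _ =>
      Finset.sum_congr rfl fun d _ => ?_
    rw [Finset.sum_mul]
    exact Finset.sum_congr rfl fun e _ => by ring
  have T2 : ∑ a, ∑ b, ∑ d, (∑ f, t d f * XX t N p ν f a b) * XX t N p ν a b d
      = ∑ a, ∑ e, t a e * (XX t N p ν e * XX t N p ν a).trace := by
    have h1 : ∀ a e, (XX t N p ν e * XX t N p ν a).trace
        = ∑ b, ∑ d, XX t N p ν e d b * XX t N p ν a b d := by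
      intro a e
      rw [ID.trace_mul_sum, Finset.sum_comm]
    simp_rw [h1]
    rw [← q_r t (fun a e b d => XX t N p ν e d b * XX t N p ν a b d)]
    refine Finset.sum_congr rfl fun a _ => Finset.sum_congr rfl fun b _ =>
      Finset.sum_congr rfl fun d _ => ?_
    rw [C1 d a b, Finset.sum_mul]
    exact Finset.sum_congr rfl fun e _ => by ring
  have T3 : ∑ a, ∑ b, ∑ d, ∑ e, p a d e * XX t N p ν e a b * (t * N) b d
      = ∑ a, ∑ e, t a e * (XX t N p ν e * (t * N * p a * σ)).trace := by
    have h1 : ∀ a e, (XX t N p ν e * (t * N * p a * σ)).trace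
        = ∑ b, ∑ d, (∑ g, (∑ f, p a d f * σ f g) * XX t N p ν e g b) * (t * N) b d := by
      intro a e
      have h2 : XX t N p ν e * (t * N * p a * σ) = (XX t N p ν e * (t * N)) * (p a * σ) := by
        simp only [Matrix.mul_assoc]
      rw [h2, trace_mul_comm, ← Matrix.mul_assoc, ID.trace_mul_sum, Finset.sum_comm]
      refine Finset.sum_congr rfl fun b _ => Finset.sum_congr rfl fun d _ => ?_
      rw [Matrix.mul_apply]
      congr 1
    simp_rw [h1]
    rw [← q_r t (fun a e b d => (∑ g, (∑ f, p a d f * σ f g) * XX t N p ν e g b) * (t * N) b d)]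
    refine Finset.sum_congr rfl fun a _ => Finset.sum_congr rfl fun b _ =>
      Finset.sum_congr rfl fun d _ => ?_
    have h3 : ∑ e, p a d e * XX t N p ν e a b * (t * N) b d
        = (∑ e, p a d e * XX t N p ν e a b) * (t * N) b d := by rw [Finset.sum_mul]
    have h4 : ∑ e, t a e * ((∑ g, (∑ f, p a d f * σ f g) * XX t N p ν e g b) * (t * N) b d)
        = (∑ e, t a e * (∑ g, (∑ f, p a d f * σ f g) * XX t N p ν e g b)) * (t * N) b d := by
      rw [Finset.sum_mul]
      exact Finset.sum_congr rfl fun e _ => by ring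
    rw [h3, h4]
    congr 1
    calc ∑ e, p a d e * XX t N p ν e a b
        = ∑ e, ∑ g, ∑ f, p a d e * (σ e g * (t a f * XX t N p ν f g b)) := by
          refine Finset.sum_congr rfl fun e _ => ?_
          rw [C2 e a b, Finset.mul_sum]
          refine Finset.sum_congr rfl fun g _ => ?_
          rw [Finset.mul_sum, Finset.mul_sum]
      _ = ∑ f, ∑ g, ∑ e, p a d e * (σ e g * (t a f * XX t N p ν f g b)) := by
          rw [Finset.sum_comm]
          rw [Finset.sum_congr rfl fun g _ => Finset.sum_comm]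
          rw [Finset.sum_comm]
      _ = ∑ e, t a e * (∑ g, (∑ f, p a d f * σ f g) * XX t N p ν e g b) := by
          refine Finset.sum_congr rfl fun f _ => ?_
          rw [Finset.mul_sum]
          refine Finset.sum_congr rfl fun g _ => ?_
          rw [Finset.sum_mul, Finset.mul_sum]
          exact Finset.sum_congr rfl fun e _ => by ring
  have htot : ∑ a, ∑ b, ∑ d,
      ((∑ e, t a e * XX t N p ν e b d) * (∑ f, t d f * ν f a b)
        + (∑ f, t d f * XX t N p ν f a b) * XX t N p ν a b d
        + ∑ e, p a d e * XX t N p ν e a b * (t * N) b d)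
      = ∑ k, ((∑ e, v k e • XX t N p ν e)
          * (∑ a, v k a • (t * ν a + XX t N p ν a + t * N * p a * σ))).trace := by
    rw [← q_dec htv]
    have h1 : ∀ a e, t a e * (XX t N p ν e * (t * ν a + XX t N p ν a + t * N * p a * σ)).trace
        = t a e * (XX t N p ν e * (t * ν a)).trace + t a e * (XX t N p ν e * XX t N p ν a).trace
          + t a e * (XX t N p ν e * (t * N * p a * σ)).trace := by
      intro a e
      rw [Matrix.mul_add, Matrix.mul_add, trace_add, trace_add]
      ring
    simp_rw [h1, Finset.sum_add_distrib]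
    rw [T1, T2, T3]
  rw [htot]
  refine Finset.sum_nonneg fun k _ => ?_
  have hX : ∑ e, v k e • XX t N p ν e = (∑ e, v k e • p e) * N + t * (∑ e, v k e • ν e) := by
    rw [Finset.sum_mul, Finset.mul_sum, ← Finset.sum_add_distrib]
    refine Finset.sum_congr rfl fun e _ => ?_
    rw [XX, smul_add, Matrix.smul_mul, Matrix.mul_smul]
  have hB : ∑ a, v k a • (t * ν a + XX t N p ν a + t * N * p a * σ)
      = t * (∑ e, v k e • ν e) + ((∑ e, v k e • p e) * N + t * (∑ e, v k e • ν e))
        + t * N * (∑ e, v k e • p e) * σ := by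
    rw [← hX, Finset.mul_sum, Finset.mul_sum, Finset.sum_mul, ← Finset.sum_add_distrib,
      ← Finset.sum_add_distrib]
    refine Finset.sum_congr rfl fun e _ => ?_
    rw [smul_add, smul_add, Matrix.mul_smul, Matrix.mul_smul, Matrix.smul_mul]
  rw [hX, hB]
  refine q_one ht hts hN ?_ ?_
  · rw [IsSymm, transpose_sum]
    exact Finset.sum_congr rfl fun e _ => by rw [transpose_smul, (hp e).eq]
  · rw [IsSymm, transpose_sum]
    exact Finset.sum_congr rfl fun e _ => by rw [transpose_smul, (hν2 e).eq]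

end Vale.Agent.P227.M.K814
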