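import Vale.Agent.P227.M.ID.K.AlgStmt
import Vale.Agent.P227.M.ID.AlgX

/-! # P227/M/ID/K : pointwise algebra for `StmtKey` (helper848) -/

namespace Vale.Agent.P227.M.K814

open Matrix

section
variable {n : ℕ} {t σ N : Matrix (Fin n) (Fin n) ℝ} {p ν : Fin n → Matrix (Fin n) (Fin n) ℝ}

/-- `T_abd = D_a τ_bd` -/
def aqT (t : Matrix (Fin n) (Fin n) ℝ) (p : Fin n → Matrix (Fin n) (Fin n) ℝ) (a b d : Fin n) : ℝ :=
  ∑ c, t a c * p c b d

/-- `W_{a;bd} = D_a U_bd` -/
def aqW (t N : Matrix (Fin n) (Fin n) ℝ) (p ν : Fin n → Matrix (Fin n) (Fin n) ℝ) (a b d : Fin n) :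
    ℝ := ∑ e, t a e * XX t N p ν e b d

theorem aqW_eq (a b d : Fin n) : aqW t N p ν a b d =
    ∑ k, aqT t p a b k * N k d + ∑ k, (∑ e, t a e * ν e k d) * t b k := by
  unfold aqW aqT XX
  simp only [Matrix.add_apply, Matrix.mul_apply, mul_add, Finset.sum_add_distrib, Finset.mul_sum,
    Finset.sum_mul]
  congr 1
  · rw [Finset.sum_comm]
    exact Finset.sum_congr rfl fun k _ => Finset.sum_congr rfl fun e _ => by ring
  · rw [Finset.sum_comm]
    exact Finset.sum_congr rfl fun k _ => Finset.sum_congr rfl fun e _ => by ring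

/-- contraction with the inverse -/
theorem aq_inv (hs : σ * t = 1) (F : Fin n → ℝ) (a : Fin n) :
    ∑ c, σ a c * ∑ e, t c e * F e = F a := by
  have h : (σ *ᵥ (t *ᵥ F)) a = F a := by
    rw [Matrix.mulVec_mulVec, hs, Matrix.one_mulVec]
  exact h

end

theorem algQ848 : AlgQ := by
  intro n t σ N p ν ht htσ hN hp hcomm hν1 hν2
  have hts : ∀ a b, t a b = t b a := fun a b => (ht.isHermitian.apply a b).symm
  have hσt : σ * t = 1 := mul_eq_one_comm.1 htσ
  have hσ : σ = t⁻¹ := (Matrix.inv_eq_right_inv htσ).symm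
  obtain ⟨A, hA⟩ := ID.t_matrix_root ht
  rw [← hσ] at hA
  have hNs : ∀ a b, N a b = N b a := fun a b => (hN.apply a b).symm
  have hps : ∀ c a b, p c a b = p c b a := fun c a b => ((hp c).apply a b).symm
  have hνs : ∀ c a b, ν c a b = ν c b a := fun c a b => ((hν2 c).apply a b).symm
  have hσs : ∀ a b, σ a b = σ b a := by
    intro a b
    rw [hA, hA]
    exact Finset.sum_congr rfl fun m _ => mul_comm _ _
  have hinv : ∀ a b, ∑ c, σ a c * t c b = if a = b then 1 else 0 := by
    intro a b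
    rw [← Matrix.mul_apply, hσt, Matrix.one_apply]
  have hT1 : ∀ a b c, aqT t p a b c = aqT t p b a c := fun a b c => hcomm a b c
  have hT2 : ∀ a b c, aqT t p a b c = aqT t p a c b := fun a b c =>
    Finset.sum_congr rfl fun k _ => by rw [hps k b c]
  have hW : ∀ a b d, aqW t N p ν a b d = aqW t N p ν b a d := by
    intro a b d
    rw [aqW_eq, aqW_eq]
    congr 1
    · exact Finset.sum_congr rfl fun k _ => by rw [hT1 a b k]
    · simp only [Finset.sum_mul]
      rw [Finset.sum_comm]
      refine Finset.sum_congr rfl fun k _ => Finset.sum_congr rfl fun e _ => ?_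
      rw [hν1 k e d]
      ring
  have hNU : ∀ f b, N f b = ∑ g, σ f g * (t * N) g b := by
    intro f b
    rw [← Matrix.mul_apply, ← Matrix.mul_assoc, hσt, Matrix.one_mul]
  have hK : ∀ b c, ∑ d, (t * N) b d * t d c = ∑ d, (t * N) c d * t d b := by
    intro b c
    rw [← Matrix.mul_apply, ← Matrix.mul_apply]
    have h1 : t.IsSymm := by
      ext a b
      exact hts b a
    have h2 : (t * N * t)ᵀ = t * N * t := by
      rw [Matrix.transpose_mul, Matrix.transpose_mul, h1.eq, hN.eq, Matrix.mul_assoc]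
    have h3 := congrFun (congrFun h2 c) b
    rw [Matrix.transpose_apply] at h3
    exact h3
  have hDK : ∀ a b c, ∑ d, (aqW t N p ν a b d * t d c + (t * N) b d * aqT t p a d c) =
      ∑ d, (aqW t N p ν a c d * t d b + (t * N) c d * aqT t p a d b) := by
    have key : ∀ a b c, ∑ d, (aqW t N p ν a b d * t d c + (t * N) b d * aqT t p a d c) =
        (∑ k, ∑ d, aqT t p a b k * N k d * t d c + ∑ k, ∑ d, aqT t p a c k * N k d * t d b) +
          ∑ d, ∑ k, (∑ e, t a e * ν e k d) * (t b k * t c d) := by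
      intro a b c
      rw [Finset.sum_add_distrib]
      have e1 : ∑ d, aqW t N p ν a b d * t d c = ∑ k, ∑ d, aqT t p a b k * N k d * t d c +
          ∑ d, ∑ k, (∑ e, t a e * ν e k d) * (t b k * t c d) := by
        rw [Finset.sum_comm (f := fun k d => aqT t p a b k * N k d * t d c),
          ← Finset.sum_add_distrib]
        refine Finset.sum_congr rfl fun d _ => ?_
        rw [aqW_eq, add_mul, Finset.sum_mul, Finset.sum_mul, hts c d]
        congr 1
        exact Finset.sum_congr rfl fun k _ => by ring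
      have e2 : ∑ d, (t * N) b d * aqT t p a d c =
          ∑ k, ∑ d, aqT t p a c k * N k d * t d b := by
        refine Finset.sum_congr rfl fun k _ => ?_
        rw [Matrix.mul_apply, Finset.sum_mul]
        refine Finset.sum_congr rfl fun d _ => ?_
        rw [hT2 a k c, hNs k d, hts d b]
        ring
      rw [e1, e2]
      ring
    intro a b c
    rw [key a b c, key a c b]
    congr 1
    · rw [add_comm]
    · rw [Finset.sum_comm]
      refine Finset.sum_congr rfl fun d _ => Finset.sum_congr rfl fun k _ => ?_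
      have h1 : ∑ e, t a e * ν e d k = ∑ e, t a e * ν e k d :=
        Finset.sum_congr rfl fun e _ => by rw [hνs e d k]
      rw [h1]
      ring
  have h := ID.alg814 (tau := fun a b => t a b) (s := fun a b => σ a b) hA hts hinv hT1 hT2 hW hNU
    hK hDK
  refine h.trans_eq ?_
  -- the conversion
  have c1 : ∀ e b d, XX t N p ν e b d = ∑ q, σ e q * aqW t N p ν q b d := fun e b d =>
    (aq_inv hσt (fun e => XX t N p ν e b d) e).symm
  have c2 : ∀ a d e, p a d e = ∑ q, σ a q * aqT t p q d e := fun a d e =>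
    (aq_inv hσt (fun c => p c d e) a).symm
  have c3 : ∀ d a b, ∑ f, t d f * ν f a b = ∑ c, σ a c * aqW t N p ν d c b -
      ∑ e, ∑ f, σ a e * aqT t p d e f * N f b := by
    intro d a b
    have e1 : ∑ c, σ a c * aqW t N p ν d c b = ∑ c, ∑ k, σ a c * aqT t p d c k * N k b +
        ∑ c, σ a c * ∑ k, t c k * (∑ e, t d e * ν e k b) := by
      rw [← Finset.sum_add_distrib]
      refine Finset.sum_congr rfl fun c _ => ?_
      rw [aqW_eq, mul_add, Finset.mul_sum]
      congr 1
      · exact Finset.sum_congr rfl fun k _ => by ring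
      · congr 1
        exact Finset.sum_congr rfl fun k _ => by ring
    rw [e1, aq_inv hσt (fun k => ∑ e, t d e * ν e k b) a]
    ring
  have hi : ∑ a, ∑ b, ∑ c, ∑ d, aqW t N p ν a b d * (σ a c * aqW t N p ν d c b) =
      ∑ a, ∑ b, ∑ d, aqW t N p ν a b d * ∑ c, σ a c * aqW t N p ν d c b := by
    refine Finset.sum_congr rfl fun a _ => Finset.sum_congr rfl fun b _ => ?_
    rw [Finset.sum_comm]
    exact Finset.sum_congr rfl fun d _ => by rw [Finset.mul_sum]
  have hii : ∑ a, ∑ b, ∑ d, ∑ e, ∑ f,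
      aqW t N p ν a b d * (σ a e * aqT t p d e f * N f b) =
      ∑ a, ∑ b, ∑ d, aqW t N p ν a b d * ∑ e, ∑ f, σ a e * aqT t p d e f * N f b := by
    refine Finset.sum_congr rfl fun a _ => Finset.sum_congr rfl fun b _ =>
      Finset.sum_congr rfl fun d _ => ?_
    simp only [Finset.mul_sum]
  have hiii : ∑ a, ∑ b, ∑ d, ∑ e, ∑ q, ∑ r,
      (t * N) b d * (σ a q * aqT t p q d e * σ e r * aqW t N p ν r a b) =
      ∑ a, ∑ b, ∑ d, ∑ e, p a d e * XX t N p ν e a b * (t * N) b d := by
    refine Finset.sum_congr rfl fun a _ => Finset.sum_congr rfl fun b _ =>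
      Finset.sum_congr rfl fun d _ => Finset.sum_congr rfl fun e _ => ?_
    rw [c2 a d e, c1 e a b, Finset.sum_mul_sum, Finset.sum_mul]
    refine Finset.sum_congr rfl fun q _ => ?_
    rw [Finset.sum_mul]
    exact Finset.sum_congr rfl fun r _ => by ring
  have hiv : ∑ a, ∑ b, ∑ c, ∑ d, aqW t N p ν d a b * (σ a c * aqW t N p ν c b d) =
      ∑ a, ∑ b, ∑ d, aqW t N p ν d a b * XX t N p ν a b d := by
    refine Finset.sum_congr rfl fun a _ => Finset.sum_congr rfl fun b _ => ?_
    rw [Finset.sum_comm]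
    refine Finset.sum_congr rfl fun d _ => ?_
    rw [c1 a b d, Finset.mul_sum]
  change ∑ a, ∑ b, ∑ c, ∑ d, aqW t N p ν a b d * (σ a c * aqW t N p ν d c b) -
      ∑ a, ∑ b, ∑ d, ∑ e, ∑ f, aqW t N p ν a b d * (σ a e * aqT t p d e f * N f b) +
      ∑ a, ∑ b, ∑ d, ∑ e, ∑ q, ∑ r,
        (t * N) b d * (σ a q * aqT t p q d e * σ e r * aqW t N p ν r a b) +
      ∑ a, ∑ b, ∑ c, ∑ d, aqW t N p ν d a b * (σ a c * aqW t N p ν c b d) = _
  rw [hi, hii, hiii, hiv, ← Finset.sum_sub_distrib, ← Finset.sum_add_distrib,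
    ← Finset.sum_add_distrib]
  refine Finset.sum_congr rfl fun a _ => ?_
  rw [← Finset.sum_sub_distrib, ← Finset.sum_add_distrib, ← Finset.sum_add_distrib]
  refine Finset.sum_congr rfl fun b _ => ?_
  rw [← Finset.sum_sub_distrib, ← Finset.sum_add_distrib, ← Finset.sum_add_distrib]
  refine Finset.sum_congr rfl fun d _ => ?_
  rw [c3 d a b]
  change aqW t N p ν a b d * _ - aqW t N p ν a b d * _ + _ + _ =
    aqW t N p ν a b d * _ + aqW t N p ν d a b * _ + _
  ring

end Vale.Agent.P227.M.K814
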