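import Mathlib

/-! # P227/M/ID/K : pointwise algebra for `StmtKey` (statements; proofs in `Alg.lean`) -/

namespace Vale.Agent.P227.M.K814

/-- `X e = ∂_e U = (∂_e τ) N + τ (∂_e N)` -/
def XX {n : ℕ} (t N : Matrix (Fin n) (Fin n) ℝ) (p ν : Fin n → Matrix (Fin n) (Fin n) ℝ) (e : Fin n) :
    Matrix (Fin n) (Fin n) ℝ := p e * N + t * ν e

def AlgQ : Prop := ∀ (n : ℕ) (t σ N : Matrix (Fin n) (Fin n) ℝ) (p ν : Fin n → Matrix (Fin n) (Fin n) ℝ),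
  t.PosDef → t * σ = 1 → N.IsSymm → (∀ a, (p a).IsSymm) →
  (∀ a b d, ∑ c, t a c * p c b d = ∑ c, t b c * p c a d) →
  (∀ a b c, ν a b c = ν b a c) → (∀ a, (ν a).IsSymm) →
  0 ≤ ∑ a, ∑ b, ∑ d,
    ((∑ e, t a e * XX t N p ν e b d) * (∑ f, t d f * ν f a b)
      + (∑ f, t d f * XX t N p ν f a b) * XX t N p ν a b d
      + ∑ e, p a d e * XX t N p ν e a b * (t * N) b d)

def AlgJ : Prop := ∀ (n : ℕ) (t N J : Matrix (Fin n) (Fin n) ℝ),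
  t.PosDef → N.IsSymm → (t * J).IsSymm →
  2 * (∑ a, ∑ b, J a b * (t * N) a b) - ∑ a, ∑ b, ∑ d, t d a * (t * N) b d * N a b
    ≤ ∑ a, ∑ b, J a b * J b a

end Vale.Agent.P227.M.K814
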