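import Vale.Agent.P227.M.ID.K.LL

/-! # P227/M/ID/K: Lipschitz calculus, closure properties and integrability -/

open MeasureTheory
open scoped Topology

namespace Vale.Agent.P227.M.K

variable {n : ℕ}

theorem LL.bdd {f : E n → ℝ} (hf : LL f) (R : ℝ) : ∃ B : ℝ, 0 ≤ B ∧ ∀ x, ‖x‖ ≤ R → |f x| ≤ B := by
  obtain ⟨K, hK⟩ := hf (max R 0)
  refine ⟨|f 0| + |K| * max R 0, by positivity, fun x hx => ?_⟩
  have h1 := hK x 0 (hx.trans (le_max_left _ _)) (by simp)
  have h2 : |f x| ≤ |f 0| + |f x - f 0| := by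
    have := abs_add_le (f 0) (f x - f 0); simpa using this
  have h3 : K * ‖x - 0‖ ≤ |K| * max R 0 := by
    have : ‖x - 0‖ ≤ max R 0 := by rw [sub_zero]; exact hx.trans (le_max_left _ _)
    calc K * ‖x - 0‖ ≤ |K| * ‖x - 0‖ := mul_le_mul_of_nonneg_right (le_abs_self K) (norm_nonneg _)
      _ ≤ |K| * max R 0 := mul_le_mul_of_nonneg_left this (abs_nonneg _)
  linarith

theorem LL.const (c : ℝ) : LL (fun _ : E n => c) := fun R => ⟨0, fun x y _ _ => by simp⟩

theorem LL.add {f g : E n → ℝ} (hf : LL f) (hg : LL g) : LL (fun x => f x + g x) := by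
  intro R
  obtain ⟨K, hK⟩ := hf R
  obtain ⟨L, hL⟩ := hg R
  refine ⟨K + L, fun x y hx hy => ?_⟩
  have h1 := hK x y hx hy
  have h2 := hL x y hx hy
  have : f x + g x - (f y + g y) = (f x - f y) + (g x - g y) := by ring
  rw [this, add_mul]
  exact (abs_add_le _ _).trans (add_le_add h1 h2)

theorem LL.neg {f : E n → ℝ} (hf : LL f) : LL (fun x => - f x) := by
  intro R
  obtain ⟨K, hK⟩ := hf R
  refine ⟨K, fun x y hx hy => ?_⟩
  have : - f x - (- f y) = -(f x - f y) := by ring
  rw [this, abs_neg]; exact hK x y hx hy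

theorem LL.sub {f g : E n → ℝ} (hf : LL f) (hg : LL g) : LL (fun x => f x - g x) := by
  simpa [sub_eq_add_neg] using hf.add hg.neg

theorem LL.mul {f g : E n → ℝ} (hf : LL f) (hg : LL g) : LL (fun x => f x * g x) := by
  intro R
  obtain ⟨K, hK⟩ := hf R
  obtain ⟨L, hL⟩ := hg R
  obtain ⟨A, hA0, hA⟩ := hf.bdd R
  obtain ⟨B, hB0, hB⟩ := hg.bdd R
  refine ⟨A * L + B * K, fun x y hx hy => ?_⟩
  have : f x * g x - f y * g y = f x * (g x - g y) + g y * (f x - f y) := by ring
  rw [this]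
  refine (abs_add_le _ _).trans ?_
  rw [abs_mul, abs_mul]
  have h1 : |f x| * |g x - g y| ≤ A * (L * ‖x - y‖) :=
    mul_le_mul (hA x hx) (hL x y hx hy) (abs_nonneg _) hA0
  have h2 : |g y| * |f x - f y| ≤ B * (K * ‖x - y‖) :=
    mul_le_mul (hB y hy) (hK x y hx hy) (abs_nonneg _) hB0
  nlinarith

theorem LL.sum {ι : Type*} (s : Finset ι) {f : ι → E n → ℝ} (hf : ∀ i, LL (f i)) :
    LL (fun x => ∑ i ∈ s, f i x) := by
  classical
  induction s using Finset.induction_on with
  | empty => simpa using LL.const (n := n) 0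
  | insert i s hi ih => simpa [Finset.sum_insert hi] using (hf i).add ih

theorem LL.continuous {f : E n → ℝ} (hf : LL f) : Continuous f := by
  rw [continuous_iff_continuousAt]
  intro x
  obtain ⟨K, hK⟩ := hf (‖x‖ + 1)
  rw [Metric.continuousAt_iff]
  intro ε hε
  refine ⟨min 1 (ε / (|K| + 1)), by positivity, fun y hy => ?_⟩
  have hy1 : dist y x < 1 := lt_of_lt_of_le hy (min_le_left _ _)
  have hy2 : dist y x < ε / (|K| + 1) := lt_of_lt_of_le hy (min_le_right _ _)
  have hny : ‖y‖ ≤ ‖x‖ + 1 := by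
    have : ‖y‖ ≤ ‖y - x‖ + ‖x‖ := by simpa using norm_add_le (y - x) x
    rw [dist_eq_norm] at hy1; linarith
  have := hK y x hny (by linarith)
  rw [Real.dist_eq]
  rw [dist_eq_norm] at hy2
  calc |f y - f x| ≤ K * ‖y - x‖ := this
    _ ≤ (|K| + 1) * ‖y - x‖ := mul_le_mul_of_nonneg_right (by linarith [le_abs_self K]) (norm_nonneg _)
    _ < (|K| + 1) * (ε / (|K| + 1)) := by
        apply mul_lt_mul_of_pos_left hy2; positivity
    _ = ε := by field_simp

/-- `C¹` functions are `LL` -/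
theorem LL.of_contDiff {f : E n → ℝ} (hf : ContDiff ℝ 1 f) : LL f := by
  intro R
  have hc : Continuous (fun x => ‖fderiv ℝ f x‖) := (hf.continuous_fderiv (by norm_num)).norm
  obtain ⟨K, hK⟩ := (isCompact_closedBall (0 : E n) R).exists_bound_of_continuousOn hc.continuousOn
  refine ⟨K, fun x y hx hy => ?_⟩
  have hconv : Convex ℝ (Metric.closedBall (0 : E n) R) := convex_closedBall _ _
  have := hconv.norm_image_sub_le_of_norm_fderiv_le (f := f) (C := K)
    (fun z _ => (hf.differentiable (by norm_num)).differentiableAt)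
    (fun z hz => by simpa using hK z hz)
    (show y ∈ Metric.closedBall (0 : E n) R by simpa using hy)
    (show x ∈ Metric.closedBall (0 : E n) R by simpa using hx)
  simpa [Real.norm_eq_abs] using this

theorem LL.inv {f : E n → ℝ} (hf : LL f) (hpos : ∀ x, 0 < f x) : LL (fun x => (f x)⁻¹) := by
  intro R
  obtain ⟨K, hK⟩ := hf R
  have hc : Continuous (fun x => (f x)⁻¹) := hf.continuous.inv₀ (fun x => (hpos x).ne')
  obtain ⟨B, hB⟩ := (isCompact_closedBall (0 : E n) R).exists_bound_of_continuousOn hc.continuousOn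
  refine ⟨|K| * (|B| * |B|), fun x y hx hy => ?_⟩
  have hx' := hB x (by simpa using hx)
  have hy' := hB y (by simpa using hy)
  have : (f x)⁻¹ - (f y)⁻¹ = (f y - f x) * ((f x)⁻¹ * (f y)⁻¹) := by
    have h1 := (hpos x).ne'
    have h2 := (hpos y).ne'
    field_simp
  rw [this, abs_mul, abs_mul]
  have h3 : |f y - f x| ≤ |K| * ‖x - y‖ := by
    rw [abs_sub_comm]
    exact (hK x y hx hy).trans (mul_le_mul_of_nonneg_right (le_abs_self K) (norm_nonneg _))
  have h4 : |(f x)⁻¹| * |(f y)⁻¹| ≤ |B| * |B| := by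
    apply mul_le_mul _ _ (abs_nonneg _) (abs_nonneg _)
    · exact (by simpa [Real.norm_eq_abs] using hx' : |(f x)⁻¹| ≤ B).trans (le_abs_self B)
    · exact (by simpa [Real.norm_eq_abs] using hy' : |(f y)⁻¹| ≤ B).trans (le_abs_self B)
  calc |f y - f x| * (|(f x)⁻¹| * |(f y)⁻¹|) ≤ (|K| * ‖x - y‖) * (|B| * |B|) :=
        mul_le_mul h3 h4 (by positivity) (by positivity)
    _ = |K| * (|B| * |B|) * ‖x - y‖ := by ring

/-- LL functions are differentiable a.e. -/
theorem LL.ae_diff {f : E n → ℝ} (hf : LL f) : ∀ᵐ x, DifferentiableAt ℝ f x := by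
  have h : ∀ N : ℕ, ∀ᵐ x : E n, x ∈ Metric.ball (0 : E n) N → DifferentiableAt ℝ f x := by
    intro N
    obtain ⟨K, hK⟩ := hf N
    have hL : LipschitzOnWith (Real.toNNReal |K|) f (Metric.ball (0 : E n) N) := by
      apply LipschitzOnWith.of_dist_le_mul
      intro x hx y hy
      rw [Real.dist_eq, dist_eq_norm, Real.coe_toNNReal _ (abs_nonneg K)]
      have hx' : ‖x‖ ≤ N := by simpa using (mem_ball_zero_iff.mp hx).le
      have hy' : ‖y‖ ≤ N := by simpa using (mem_ball_zero_iff.mp hy).le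
      exact (hK x y hx' hy').trans (mul_le_mul_of_nonneg_right (le_abs_self K) (norm_nonneg _))
    have := hL.ae_differentiableWithinAt_of_mem (μ := volume)
    filter_upwards [this] with x hx hxN
    exact (hx hxN).differentiableAt (Metric.isOpen_ball.mem_nhds hxN)
  filter_upwards [ae_all_iff.mpr h] with x hx
  obtain ⟨N, hN⟩ := exists_nat_gt ‖x‖
  exact hx N (by simpa using hN)

theorem LC.lip {f : E n → ℝ} (hf : LC f) : ∃ K, LipschitzWith K f := by
  obtain ⟨R, hR⟩ := hf.2.isCompact.isBounded.subset_closedBall (0 : E n)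
  have hR0 : ∀ x, R < ‖x‖ → f x = 0 := by
    intro x hx
    by_contra hne
    have : x ∈ tsupport f := subset_tsupport f hne
    have := hR this
    simp at this
    linarith
  obtain ⟨K, hK⟩ := hf.1 (|R| + 1)
  obtain ⟨B, hB0, hB⟩ := hf.1.bdd (|R| + 1)
  refine ⟨Real.toNNReal (|K| + B), LipschitzWith.of_dist_le_mul fun x y => ?_⟩
  rw [Real.dist_eq, dist_eq_norm, Real.coe_toNNReal _ (by positivity)]
  wlog hxy : ‖x‖ ≤ ‖y‖ generalizing x y with H
  · have := H y x (le_of_lt (not_le.mp hxy))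
    rwa [abs_sub_comm, norm_sub_rev]
  by_cases hy : ‖y‖ ≤ |R| + 1
  · refine (hK x y (hxy.trans hy) hy).trans (mul_le_mul_of_nonneg_right ?_ (norm_nonneg _))
    linarith [le_abs_self K]
  · push Not at hy
    have hfy : f y = 0 := hR0 y (by linarith [le_abs_self R])
    by_cases hx : ‖x‖ ≤ |R|
    · rw [hfy, sub_zero]
      have h1 : |f x| ≤ B := hB x (by linarith)
      have h2 : 1 ≤ ‖x - y‖ := by
        have : ‖y‖ ≤ ‖x - y‖ + ‖x‖ := by
          have := norm_sub_norm_le y x
          rw [norm_sub_rev] at this; linarith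
        linarith
      calc |f x| ≤ B := h1
        _ ≤ (|K| + B) * 1 := by linarith [abs_nonneg K]
        _ ≤ (|K| + B) * ‖x - y‖ := mul_le_mul_of_nonneg_left h2 (by positivity)
    · push Not at hx
      have hfx : f x = 0 := hR0 x (by linarith [le_abs_self R])
      rw [hfx, hfy]; simp; positivity

theorem LC.add {f g : E n → ℝ} (hf : LC f) (hg : LC g) : LC (fun x => f x + g x) :=
  ⟨hf.1.add hg.1, hf.2.add hg.2⟩

theorem LC.mul_LL {f g : E n → ℝ} (hf : LC f) (hg : LL g) : LC (fun x => f x * g x) :=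
  ⟨hf.1.mul hg, hf.2.mul_right⟩

theorem LC.LL_mul {f g : E n → ℝ} (hf : LL f) (hg : LC g) : LC (fun x => f x * g x) :=
  ⟨hf.mul hg.1, hg.2.mul_left⟩

theorem LC.neg {f : E n → ℝ} (hf : LC f) : LC (fun x => - f x) := by
  have := hf.mul_LL (LL.const (n := n) (-1))
  simpa using this

theorem LC.zero : LC (fun _ : E n => (0 : ℝ)) := ⟨LL.const 0, HasCompactSupport.zero⟩

theorem LC.sum {ι : Type*} (s : Finset ι) {f : ι → E n → ℝ} (hf : ∀ i, LC (f i)) :
    LC (fun x => ∑ i ∈ s, f i x) := by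
  classical
  induction s using Finset.induction_on with
  | empty => simpa using LC.zero (n := n)
  | insert i s hi ih => simpa [Finset.sum_insert hi] using (hf i).add ih

theorem Test.LC {f : E n → ℝ} (hf : Test f) : LC f :=
  ⟨LL.of_contDiff (hf.1.of_le (by exact_mod_cast le_top)), hf.2⟩

/-- partial derivatives of smooth functions -/
theorem contDiff_pd {f : E n → ℝ} (hf : ContDiff ℝ (⊤ : ℕ∞) f) (a : Fin n) :
    ContDiff ℝ (⊤ : ℕ∞) (pd a f) := by
  have h : ContDiff ℝ (⊤ : ℕ∞) (fun x => fderiv ℝ f x) :=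
    hf.fderiv_right (by simp)
  exact h.clm_apply contDiff_const

theorem Test.pd {f : E n → ℝ} (hf : Test f) (a : Fin n) : Test (Vale.Agent.P227.M.pd a f) := by
  refine ⟨contDiff_pd hf.1 a, ?_⟩
  have := hf.2.fderiv_apply (𝕜 := ℝ) (ei a)
  exact this

theorem LL.of_smooth {f : E n → ℝ} (hf : ContDiff ℝ (⊤ : ℕ∞) f) : LL f :=
  LL.of_contDiff (hf.of_le (by exact_mod_cast le_top))

theorem LL.coord (a : Fin n) : LL (fun x : E n => x a) := by
  apply LL.of_smooth
  exact (EuclideanSpace.proj (𝕜 := ℝ) a).contDiff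

theorem LL.exp_neg {V : E n → ℝ} (hV : ContDiff ℝ (⊤ : ℕ∞) V) : LL (fun x => Real.exp (- V x)) :=
  LL.of_smooth (hV.neg.exp)

/-! ### rules for `pd` -/

theorem pd_add {f g : E n → ℝ} {x : E n} (hf : DifferentiableAt ℝ f x) (hg : DifferentiableAt ℝ g x)
    (a : Fin n) : pd a (fun y => f y + g y) x = pd a f x + pd a g x := by
  unfold pd
  rw [show (fun y => f y + g y) = f + g from rfl, fderiv_add hf hg]; rfl

theorem pd_neg {f : E n → ℝ} {x : E n} (a : Fin n) : pd a (fun y => - f y) x = - pd a f x := by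
  unfold pd
  rw [show (fun y => - f y) = -f from rfl, fderiv_neg]; rfl

theorem pd_sub {f g : E n → ℝ} {x : E n} (hf : DifferentiableAt ℝ f x) (hg : DifferentiableAt ℝ g x)
    (a : Fin n) : pd a (fun y => f y - g y) x = pd a f x - pd a g x := by
  unfold pd
  rw [show (fun y => f y - g y) = f - g from rfl, fderiv_sub hf hg]; rfl

theorem pd_mul {f g : E n → ℝ} {x : E n} (hf : DifferentiableAt ℝ f x) (hg : DifferentiableAt ℝ g x)
    (a : Fin n) : pd a (fun y => f y * g y) x = f x * pd a g x + g x * pd a f x := by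
  unfold pd
  rw [show (fun y => f y * g y) = f * g from rfl, fderiv_mul hf hg]
  simp

theorem pd_sum {ι : Type*} (s : Finset ι) {f : ι → E n → ℝ} {x : E n}
    (hf : ∀ i ∈ s, DifferentiableAt ℝ (f i) x) (a : Fin n) :
    pd a (fun y => ∑ i ∈ s, f i y) x = ∑ i ∈ s, pd a (f i) x := by
  unfold pd
  rw [fderiv_fun_sum hf]
  simp

theorem pd_coord (a b : Fin n) (x : E n) : pd a (fun y : E n => y b) x = if a = b then 1 else 0 := by
  unfold pd ei
  have : (fun y : E n => y b) = (EuclideanSpace.proj (𝕜 := ℝ) b : E n → ℝ) := rfl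
  rw [this, ContinuousLinearMap.fderiv]
  simp [EuclideanSpace.proj, eq_comm]

theorem pd_exp_neg {V : E n → ℝ} {x : E n} (hV : DifferentiableAt ℝ V x) (a : Fin n) :
    pd a (fun y => Real.exp (- V y)) x = - pd a V x * Real.exp (- V x) := by
  unfold pd
  have h : HasFDerivAt (fun y => Real.exp (- V y)) (Real.exp (- V x) • -fderiv ℝ V x) x :=
    (hV.hasFDerivAt.neg).exp
  rw [h.fderiv]
  simp; ring

theorem diff_coord (b : Fin n) (x : E n) : DifferentiableAt ℝ (fun y : E n => y b) x :=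
  (EuclideanSpace.proj (𝕜 := ℝ) b).differentiableAt

/-! ### locally bounded measurable functions -/

/-- measurable and bounded on balls -/
def BM (f : E n → ℝ) : Prop := Measurable f ∧ ∀ R : ℝ, ∃ B : ℝ, ∀ x, ‖x‖ ≤ R → |f x| ≤ B

theorem LL.BM {f : E n → ℝ} (hf : LL f) : BM f :=
  ⟨hf.continuous.measurable, fun R => (hf.bdd R).imp fun _ h => h.2⟩

theorem BM.mul {f g : E n → ℝ} (hf : BM f) (hg : BM g) : BM (fun x => f x * g x) := by
  refine ⟨hf.1.mul hg.1, fun R => ?_⟩
  obtain ⟨A, hA⟩ := hf.2 R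
  obtain ⟨B, hB⟩ := hg.2 R
  refine ⟨|A| * |B|, fun x hx => ?_⟩
  rw [abs_mul]
  exact mul_le_mul ((hA x hx).trans (le_abs_self _)) ((hB x hx).trans (le_abs_self _)) (abs_nonneg _)
    (abs_nonneg _)

theorem BM.add {f g : E n → ℝ} (hf : BM f) (hg : BM g) : BM (fun x => f x + g x) := by
  refine ⟨hf.1.add hg.1, fun R => ?_⟩
  obtain ⟨A, hA⟩ := hf.2 R
  obtain ⟨B, hB⟩ := hg.2 R
  exact ⟨A + B, fun x hx => (abs_add_le _ _).trans (add_le_add (hA x hx) (hB x hx))⟩

theorem BM.neg {f : E n → ℝ} (hf : BM f) : BM (fun x => - f x) :=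
  ⟨hf.1.neg, fun R => (hf.2 R).imp fun _ h x hx => by simpa using h x hx⟩

theorem BM.sub {f g : E n → ℝ} (hf : BM f) (hg : BM g) : BM (fun x => f x - g x) := by
  simpa [sub_eq_add_neg] using hf.add hg.neg

theorem BM.const (c : ℝ) : BM (fun _ : E n => c) := (LL.const c).BM

theorem BM.sum {ι : Type*} (s : Finset ι) {f : ι → E n → ℝ} (hf : ∀ i, BM (f i)) :
    BM (fun x => ∑ i ∈ s, f i x) := by
  classical
  induction s using Finset.induction_on with
  | empty => simpa using BM.const (n := n) 0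
  | insert i s hi ih => simpa [Finset.sum_insert hi] using (hf i).add ih

theorem measurable_pd (f : E n → ℝ) (a : Fin n) : Measurable (pd a f) :=
  measurable_fderiv_apply_const ℝ f (ei a)

theorem LL.BM_pd {f : E n → ℝ} (hf : LL f) (a : Fin n) : K.BM (pd a f) := by
  refine ⟨measurable_pd f a, fun R => ?_⟩
  obtain ⟨K, hK⟩ := hf (R + 1)
  refine ⟨|K| * ‖(ei a : E n)‖, fun x hx => ?_⟩
  unfold pd
  have h1 : ‖fderiv ℝ f x‖ ≤ |K| := by
    have hL : LipschitzOnWith (Real.toNNReal |K|) f (Metric.ball x 1) := by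
      apply LipschitzOnWith.of_dist_le_mul
      intro y hy z hz
      rw [Real.dist_eq, dist_eq_norm, Real.coe_toNNReal _ (abs_nonneg K)]
      have e1 : ‖y‖ ≤ R + 1 := by
        have h := mem_ball_iff_norm.mp hy
        have : ‖y‖ ≤ ‖y - x‖ + ‖x‖ := by simpa using norm_add_le (y - x) x
        linarith
      have e2 : ‖z‖ ≤ R + 1 := by
        have h := mem_ball_iff_norm.mp hz
        have : ‖z‖ ≤ ‖z - x‖ + ‖x‖ := by simpa using norm_add_le (z - x) x
        linarith
      exact (hK y z e1 e2).trans (mul_le_mul_of_nonneg_right (le_abs_self K) (norm_nonneg _))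
    have := norm_fderiv_le_of_lipschitzOn ℝ (Metric.ball_mem_nhds x one_pos) hL
    simpa [Real.coe_toNNReal _ (abs_nonneg K)] using this
  have h2 := (fderiv ℝ f x).le_opNorm (ei a)
  rw [← Real.norm_eq_abs]
  exact h2.trans (mul_le_mul_of_nonneg_right h1 (norm_nonneg _))

theorem BM.integrable {f : E n → ℝ} (hf : BM f) (hc : HasCompactSupport f) : Integrable f := by
  obtain ⟨R, hR⟩ := hc.isCompact.isBounded.subset_closedBall (0 : E n)
  obtain ⟨B, hB⟩ := hf.2 R
  have hs : Function.support f ⊆ Metric.closedBall (0 : E n) R := (subset_tsupport f).trans hR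
  rw [← integrableOn_iff_integrable_of_support_subset hs]
  refine Measure.integrableOn_of_bounded (M := B) (measure_closedBall_lt_top.ne)
    hf.1.aestronglyMeasurable ?_
  filter_upwards [ae_restrict_mem measurableSet_closedBall] with x hx
  simpa [Real.norm_eq_abs] using hB x (by simpa using hx)

theorem LC.pd_supp {f : E n → ℝ} (hf : LC f) (a : Fin n) : HasCompactSupport (pd a f) :=
  hf.2.fderiv_apply (𝕜 := ℝ) (ei a)

/-- integral of a partial derivative -/
theorem integral_pd {f : E n → ℝ} (hf : LC f) (a : Fin n) : ∫ x, pd a f x = 0 := by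
  obtain ⟨K, hK⟩ := hf.lip
  have h := LipschitzWith.integral_lineDeriv_mul_eq (μ := volume) (f := fun _ : E n => (1 : ℝ)) (g := f)
    (LipschitzWith.const (α := E n) (1 : ℝ)) hK hf.2 (-(ei a))
  have h1 : ∀ x : E n, lineDeriv ℝ (fun _ : E n => (1 : ℝ)) x (-(ei a)) = 0 := by
    intro x; simp [lineDeriv]
  simp only [h1, zero_mul, integral_zero, neg_neg, mul_one] at h
  rw [h]
  apply integral_congr_ae
  filter_upwards [hf.1.ae_diff] with x hx
  unfold pd
  rw [hx.lineDeriv_eq_fderiv]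

end Vale.Agent.P227.M.K
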