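import Vale.Agent.P227.M.ID.K.Calc
import Vale.Agent.P227.M.Stmts

/-! # P227/M/ID/K: weighted integration by parts for Lipschitz functions -/

open MeasureTheory
open scoped Topology

namespace Vale.Agent.P227.M.K

variable {n : ℕ}

/-- bounded measurable with compact support -/
def BC (f : E n → ℝ) : Prop := BM f ∧ HasCompactSupport f

theorem LC.BC {f : E n → ℝ} (hf : LC f) : BC f := ⟨hf.1.BM, hf.2⟩
theorem LC.BC_pd {f : E n → ℝ} (hf : LC f) (a : Fin n) : K.BC (pd a f) := ⟨hf.1.BM_pd a, hf.pd_supp a⟩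
theorem BC.mul_BM {f g : E n → ℝ} (hf : BC f) (hg : BM g) : BC (fun x => f x * g x) :=
  ⟨hf.1.mul hg, hf.2.mul_right⟩
theorem BM.mul_BC {f g : E n → ℝ} (hf : BM f) (hg : BC g) : BC (fun x => f x * g x) :=
  ⟨hf.mul hg.1, hg.2.mul_left⟩
theorem BC.add {f g : E n → ℝ} (hf : BC f) (hg : BC g) : BC (fun x => f x + g x) :=
  ⟨hf.1.add hg.1, hf.2.add hg.2⟩
theorem BC.neg {f : E n → ℝ} (hf : BC f) : BC (fun x => - f x) := by
  have := hf.mul_BM (BM.const (n := n) (-1))
  simpa using this
theorem BC.sub {f g : E n → ℝ} (hf : BC f) (hg : BC g) : BC (fun x => f x - g x) := by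
  simpa [sub_eq_add_neg] using hf.add hg.neg
theorem BC.zero : BC (fun _ : E n => (0 : ℝ)) := LC.zero.BC
theorem BC.sum {ι : Type*} (s : Finset ι) {f : ι → E n → ℝ} (hf : ∀ i, BC (f i)) :
    BC (fun x => ∑ i ∈ s, f i x) := by
  classical
  induction s using Finset.induction_on with
  | empty => simpa using BC.zero (n := n)
  | insert i s hi ih => simpa [Finset.sum_insert hi] using (hf i).add ih

/-- weighted integral -/
noncomputable def I (V f : E n → ℝ) : ℝ := ∫ x, f x * Real.exp (-V x)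

section
variable {V : E n → ℝ} (hV : ContDiff ℝ (⊤ : ℕ∞) V)
include hV

theorem BC.int {f : E n → ℝ} (hf : BC f) : Integrable (fun x => f x * Real.exp (-V x)) := by
  have := hf.mul_BM (LL.exp_neg hV).BM
  exact this.1.integrable this.2

theorem I_add {f g : E n → ℝ} (hf : BC f) (hg : BC g) : I V (fun x => f x + g x) = I V f + I V g := by
  unfold I
  simp_rw [add_mul]
  exact integral_add (BC.int hV hf) (BC.int hV hg)

theorem I_sub {f g : E n → ℝ} (hf : BC f) (hg : BC g) : I V (fun x => f x - g x) = I V f - I V g := by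
  unfold I
  simp_rw [sub_mul]
  exact integral_sub (BC.int hV hf) (BC.int hV hg)

theorem I_sum {ι : Type*} (s : Finset ι) {f : ι → E n → ℝ} (hf : ∀ i, BC (f i)) :
    I V (fun x => ∑ i ∈ s, f i x) = ∑ i ∈ s, I V (f i) := by
  unfold I
  simp_rw [Finset.sum_mul]
  exact integral_finsetSum _ fun i _ => BC.int hV (hf i)

omit hV in
theorem I_neg {f : E n → ℝ} : I V (fun x => - f x) = - I V f := by
  unfold I
  simp_rw [neg_mul]
  exact integral_neg _

omit hV in
theorem I_congr {f g : E n → ℝ} (h : ∀ᵐ x, f x = g x) : I V f = I V g := by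
  unfold I
  apply integral_congr_ae
  filter_upwards [h] with x hx
  rw [hx]

theorem LL_pdV (a : Fin n) : LL (pd a V) := LL.of_smooth (contDiff_pd hV a)

theorem diffV (x : E n) : DifferentiableAt ℝ V x := (hV.differentiable (by simp)).differentiableAt

theorem diffExp (x : E n) : DifferentiableAt ℝ (fun y => Real.exp (- V y)) x :=
  ((hV.neg.exp).differentiable (by simp)).differentiableAt

/-- (c2) -/
theorem c2 {f : E n → ℝ} (hf : LC f) (a : Fin n) : I V (pd a f) = I V (fun x => pd a V x * f x) := by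
  have h := integral_pd (hf.mul_LL (LL.exp_neg hV)) a
  have h1 : ∫ x, pd a (fun y => f y * Real.exp (- V y)) x
      = I V (fun x => pd a f x - pd a V x * f x) := by
    unfold I
    apply integral_congr_ae
    filter_upwards [hf.1.ae_diff] with x hx
    rw [pd_mul hx (diffExp hV x), pd_exp_neg (diffV hV x)]
    ring
  rw [h1, I_sub hV (hf.BC_pd a) ((LL_pdV hV a).BM.mul_BC hf.BC)] at h
  linarith

/-- (c2h) -/
theorem c2h {h f : E n → ℝ} (hh : LL h) (hf : LC f) (a : Fin n) :
    I V (fun x => h x * pd a f x) = I V (fun x => (pd a V x * h x - pd a h x) * f x) := by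
  have e := c2 hV (LC.LL_mul hh hf) a
  have e1 : I V (pd a fun x => h x * f x) = I V (fun x => h x * pd a f x + pd a h x * f x) := by
    apply I_congr
    filter_upwards [hf.1.ae_diff, hh.ae_diff] with x hx hx'
    rw [pd_mul hx' hx]; ring
  rw [e1, I_add hV (hh.BM.mul_BC (hf.BC_pd a)) ((hh.BM_pd a).mul_BC hf.BC)] at e
  have e2 : I V (fun x => (pd a V x * h x - pd a h x) * f x)
      = I V (fun x => pd a V x * (h x * f x)) - I V (fun x => pd a h x * f x) := by
    rw [← I_sub hV ((LL_pdV hV a).BM.mul_BC (hh.BM.mul_BC hf.BC)) ((hh.BM_pd a).mul_BC hf.BC)]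
    congr 1; ext x; ring
  rw [e2]; linarith

/-- (W3) -/
theorem W3 (hW : StmtW) {h Q : E n → ℝ} (hh : LL h) (hQ : LC Q) (a e : Fin n) :
    I V (fun x => (pd a h x - pd a V x * h x) * pd e Q x)
      = I V (fun x => (pd e h x - pd e V x * h x) * pd a Q x) := by
  have hG : LL (fun x => h x * Real.exp (- V x)) := hh.mul (LL.exp_neg hV)
  have e0 := hW n Q (fun x => h x * Real.exp (- V x)) e a hQ hG
  have key : ∀ i j : Fin n, ∫ x, pd j Q x * pd i (fun x => h x * Real.exp (- V x)) x
      = I V (fun x => (pd i h x - pd i V x * h x) * pd j Q x) := by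
    intro i j
    unfold I
    apply integral_congr_ae
    filter_upwards [hh.ae_diff] with x hx
    rw [pd_mul hx (diffExp hV x), pd_exp_neg (diffV hV x)]
    ring
  rw [key, key] at e0
  exact e0

end

/-! ### the moment map context -/

/-- what is used of `τ` -/
structure Ctx (ψ V : E n → ℝ) : Prop where
  hV : ContDiff ℝ (⊤ : ℕ∞) V
  W : StmtW
  LLt : ∀ i j, LL (fun x => tau ψ x i j)
  symm : ∀ x i j, tau ψ x i j = tau ψ x j i
  pos : ∀ x, (tau ψ x).PosDef
  ae_dif : ∀ᵐ x, ∀ i j, DifferentiableAt ℝ (fun y => tau ψ y i j) x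
  ae_T : ∀ᵐ x, ∀ a b c, ∑ e, tau ψ x a e * pd e (fun y => tau ψ y b c) x
    = ∑ e, tau ψ x b e * pd e (fun y => tau ψ y a c) x
  ae_div : ∀ᵐ x, ∀ b, ∑ a, pd a (fun y => tau ψ y a b) x = (∑ a, pd a V x * tau ψ x a b) - x b

section
variable {ψ V : E n → ℝ} (c : Ctx ψ V)
include c

theorem BM_fld {f : E n → ℝ} (hf : LL f) (a : Fin n) : BM (fld ψ f a) := by
  unfold fld
  exact BM.sum _ fun b => (c.LLt a b).BM.mul (hf.BM_pd b)

theorem BC_fld {f : E n → ℝ} (hf : LC f) (a : Fin n) : BC (fld ψ f a) := by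
  unfold fld
  exact BC.sum _ fun b => (c.LLt a b).BM.mul_BC (hf.BC_pd b)

/-- `D_a g` is locally Lipschitz for smooth `g` -/
theorem LL_fld {g : E n → ℝ} (hg : ContDiff ℝ (⊤ : ℕ∞) g) (a : Fin n) : LL (fld ψ g a) := by
  unfold fld
  exact LL.sum _ fun b => (c.LLt a b).mul (LL.of_smooth (contDiff_pd hg b))

theorem LC_fld {g : E n → ℝ} (hg : Test g) (a : Fin n) : LC (fld ψ g a) := by
  unfold fld
  exact LC.sum _ fun b => LC.LL_mul (c.LLt a b) (Test.LC (Test.pd hg b))

omit c in
theorem fld_mul {f g : E n → ℝ} {x : E n} (hf : DifferentiableAt ℝ f x) (hg : DifferentiableAt ℝ g x)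
    (a : Fin n) : fld ψ (fun y => f y * g y) a x = f x * fld ψ g a x + g x * fld ψ f a x := by
  unfold fld
  rw [Finset.mul_sum, Finset.mul_sum, ← Finset.sum_add_distrib]
  refine Finset.sum_congr rfl fun b _ => ?_
  rw [pd_mul hf hg]; ring

omit c in
theorem fld_add {f g : E n → ℝ} {x : E n} (hf : DifferentiableAt ℝ f x) (hg : DifferentiableAt ℝ g x)
    (a : Fin n) : fld ψ (fun y => f y + g y) a x = fld ψ f a x + fld ψ g a x := by
  unfold fld
  rw [← Finset.sum_add_distrib]
  refine Finset.sum_congr rfl fun b _ => ?_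
  rw [pd_add hf hg]; ring

omit c in
theorem fld_sub {f g : E n → ℝ} {x : E n} (hf : DifferentiableAt ℝ f x) (hg : DifferentiableAt ℝ g x)
    (a : Fin n) : fld ψ (fun y => f y - g y) a x = fld ψ f a x - fld ψ g a x := by
  unfold fld
  rw [← Finset.sum_sub_distrib]
  refine Finset.sum_congr rfl fun b _ => ?_
  rw [pd_sub hf hg]; ring

omit c in
theorem fld_coord (a d : Fin n) (x : E n) : fld ψ (fun y : E n => y d) a x = tau ψ x a d := by
  unfold fld
  simp only [pd_coord]
  simp

omit c in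
theorem fld_sum {ι : Type*} (s : Finset ι) {f : ι → E n → ℝ} {x : E n}
    (hf : ∀ i ∈ s, DifferentiableAt ℝ (f i) x) (a : Fin n) :
    fld ψ (fun y => ∑ i ∈ s, f i y) a x = ∑ i ∈ s, fld ψ (f i) a x := by
  unfold fld
  rw [Finset.sum_comm]
  refine Finset.sum_congr rfl fun b _ => ?_
  rw [pd_sum s hf, Finset.mul_sum]

/-- (c1) -/
theorem c1 {f : E n → ℝ} (hf : LC f) (a : Fin n) : I V (fld ψ f a) = I V (fun x => x a * f x) := by
  have h : ∀ b, I V (pd b (fun x => tau ψ x b a * f x))
      = I V (fun x => pd b V x * (tau ψ x b a * f x)) := fun b =>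
    c2 c.hV (LC.LL_mul (c.LLt b a) hf) b
  have h1 := Finset.sum_congr (rfl : (Finset.univ : Finset (Fin n)) = Finset.univ) fun b _ => h b
  rw [← I_sum c.hV, ← I_sum c.hV] at h1
  rotate_left
  · exact fun b => (LL_pdV c.hV b).BM.mul_BC (LC.LL_mul (c.LLt b a) hf).BC
  · exact fun b => (LC.LL_mul (c.LLt b a) hf).BC_pd b
  have h2 : I V (fun x => ∑ b, pd b (fun x => tau ψ x b a * f x) x)
      = I V (fun x => (fld ψ f a x - x a * f x) + ∑ b, pd b V x * (tau ψ x b a * f x)) := by
    apply I_congr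
    filter_upwards [hf.1.ae_diff, c.ae_dif, c.ae_div] with x hx ht hd
    have : ∀ b, pd b (fun x => tau ψ x b a * f x) x
        = tau ψ x a b * pd b f x + f x * pd b (fun y => tau ψ y b a) x := by
      intro b
      rw [pd_mul (ht b a) hx, c.symm x b a]
    simp only [this]
    rw [Finset.sum_add_distrib, ← Finset.mul_sum, hd a]
    unfold fld
    rw [mul_sub, Finset.mul_sum]
    have h3 : ∑ i, f x * (pd i V x * tau ψ x i a) = ∑ b, pd b V x * (tau ψ x b a * f x) :=
      Finset.sum_congr rfl fun b _ => by ring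
    rw [h3]; ring
  rw [h2, I_add c.hV] at h1
  rotate_left
  · exact (BC_fld c hf a).sub ((LL.coord a).BM.mul_BC hf.BC)
  · exact BC.sum _ fun b => (LL_pdV c.hV b).BM.mul_BC (LC.LL_mul (c.LLt b a) hf).BC
  rw [I_sub c.hV (BC_fld c hf a) ((LL.coord a).BM.mul_BC hf.BC)] at h1
  linarith

/-- (c1h) -/
theorem c1h {h f : E n → ℝ} (hh : LL h) (hf : LC f) (a : Fin n) :
    I V (fun x => h x * fld ψ f a x) = I V (fun x => (x a * h x - fld ψ h a x) * f x) := by
  have e := c1 c (LC.LL_mul hh hf) a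
  have e1 : I V (fld ψ (fun x => h x * f x) a)
      = I V (fun x => h x * fld ψ f a x + fld ψ h a x * f x) := by
    apply I_congr
    filter_upwards [hf.1.ae_diff, hh.ae_diff] with x hx hx'
    rw [fld_mul hx' hx]; ring
  rw [e1, I_add c.hV (hh.BM.mul_BC (BC_fld c hf a)) ((BM_fld c hh a).mul_BC hf.BC)] at e
  have e2 : I V (fun x => (x a * h x - fld ψ h a x) * f x)
      = I V (fun x => x a * (h x * f x)) - I V (fun x => fld ψ h a x * f x) := by
    rw [← I_sub c.hV ((LL.coord a).BM.mul_BC (hh.BM.mul_BC hf.BC)) ((BM_fld c hh a).mul_BC hf.BC)]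
    congr 1; ext x; ring
  rw [e2]; linarith

/-- commutation of `D_a`, `D_d` on smooth functions -/
theorem comm {g : E n → ℝ} (hg : ContDiff ℝ (⊤ : ℕ∞) g) :
    ∀ᵐ x, ∀ a d, fld ψ (fld ψ g a) d x = fld ψ (fld ψ g d) a x := by
  filter_upwards [c.ae_dif, c.ae_T] with x ht hT
  have hgd : ∀ b, DifferentiableAt ℝ (pd b g) x := fun b =>
    ((contDiff_pd hg b).differentiable (by simp)).differentiableAt
  have hsym : ∀ i j, pd i (pd j g) x = pd j (pd i g) x := by
    intro i j
    have h2 : IsSymmSndFDerivAt ℝ g x :=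
      ((hg.of_le (m := 2) (WithTop.coe_le_coe.2 (le_top : (2 : ℕ∞) ≤ ⊤))).contDiffAt (x := x)).isSymmSndFDerivAt (by simp)
    have hd : DifferentiableAt ℝ (fderiv ℝ g) x :=
      ((hg.fderiv_right (m := (⊤ : ℕ∞)) (by simp)).differentiable (by simp)).differentiableAt
    have : ∀ i j : Fin n, pd i (pd j g) x = fderiv ℝ (fderiv ℝ g) x (ei i) (ei j) := by
      intro i j
      unfold pd
      rw [fderiv_clm_apply hd (by fun_prop)]
      simp
    rw [this, this]
    exact h2 _ _
  have main : ∀ a d, fld ψ (fld ψ g a) d x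
      = ∑ b, (∑ e, tau ψ x d e * pd e (fun y => tau ψ y a b) x) * pd b g x
        + ∑ e, ∑ b, tau ψ x d e * (tau ψ x a b * pd e (pd b g) x) := by
    intro a d
    unfold fld
    have h1 : ∀ e, pd e (fun x => ∑ b, tau ψ x a b * pd b g x) x
        = ∑ b, (tau ψ x a b * pd e (pd b g) x + pd b g x * pd e (fun y => tau ψ y a b) x) := by
      intro e
      rw [pd_sum (f := fun b x => tau ψ x a b * pd b g x) Finset.univ (fun b _ => (ht a b).mul (hgd b))]
      refine Finset.sum_congr rfl fun b _ => ?_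
      rw [pd_mul (ht a b) (hgd b)]
    simp only [h1, Finset.mul_sum, Finset.sum_mul, mul_add, Finset.sum_add_distrib]
    rw [add_comm]
    congr 1
    rw [Finset.sum_comm]
    refine Finset.sum_congr rfl fun b _ => Finset.sum_congr rfl fun e _ => ?_
    ring
  intro a d
  rw [main, main]
  congr 1
  · refine Finset.sum_congr rfl fun b _ => ?_
    rw [hT d a b]
  · rw [Finset.sum_comm]
    refine Finset.sum_congr rfl fun b _ => Finset.sum_congr rfl fun e _ => ?_
    rw [hsym b e]
    ring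

end

end Vale.Agent.P227.M.K
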