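import Vale.Agent.P227.M.ID.K.KStmt

/-! # P227/M/ID/K: (K1) -/

open MeasureTheory
open scoped Topology

namespace Vale.Agent.P227.M.K

variable {n : ℕ} {ψ V : E n → ℝ}

theorem I1 (c : Ctx ψ V) {f g : E n → ℝ} (hf : LC f) (hg : ContDiff ℝ (⊤ : ℕ∞) g) (a d : Fin n) :
    I V (fun x => (x d * f x - fld ψ f d x) * (x a * g x - fld ψ g a x))
      = I V (fun x => tau ψ x a d * (f x * g x)) + I V (fun x => fld ψ f a x * fld ψ g d x) := by
  have hga : LL (fld ψ g a) := LL_fld c hg a
  have hgd : LL (fld ψ g d) := LL_fld c hg d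
  have hgl : LL g := LL.of_smooth hg
  have hk : LL (fun x : E n => x a * g x - fld ψ g a x) := ((LL.coord a).mul hgl).sub hga
  have e1 := c1h c hk hf d
  have e2 := c1h c hgd hf a
  have s1 : I V (fun x => (x d * f x - fld ψ f d x) * (x a * g x - fld ψ g a x))
      = I V (fun x => (x d * (x a * g x - fld ψ g a x)) * f x)
        - I V (fun x => (x a * g x - fld ψ g a x) * fld ψ f d x) := by
    rw [← I_sub c.hV (((LL.coord d).mul hk).BM.mul_BC hf.BC) (hk.BM.mul_BC (BC_fld c hf d))]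
    congr 1; ext x; ring
  have s2 : I V (fun x => (x d * (x a * g x - fld ψ g a x)
        - fld ψ (fun x : E n => x a * g x - fld ψ g a x) d x) * f x)
      = I V (fun x => (x d * (x a * g x - fld ψ g a x)) * f x)
        - I V (fun x => fld ψ (fun x : E n => x a * g x - fld ψ g a x) d x * f x) := by
    rw [← I_sub c.hV (((LL.coord d).mul hk).BM.mul_BC hf.BC) ((BM_fld c hk d).mul_BC hf.BC)]
    congr 1; ext x; ring
  have s3 : I V (fun x => fld ψ (fun x : E n => x a * g x - fld ψ g a x) d x * f x)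
      = I V (fun x => tau ψ x a d * (f x * g x) + (x a * fld ψ g d x - fld ψ (fld ψ g d) a x) * f x) := by
    apply I_congr
    filter_upwards [hga.ae_diff, hgl.ae_diff, comm c hg] with x h1 h2 h3
    have h4 : DifferentiableAt ℝ (fun y : E n => y a * g y) x := (diff_coord a x).mul h2
    rw [fld_sub h4 h1, fld_mul (diff_coord a x) h2, fld_coord, h3 a d, c.symm x d a]
    ring
  have s4 := I_add (V := V) c.hV (f := fun x => tau ψ x a d * (f x * g x))
    (g := fun x => (x a * fld ψ g d x - fld ψ (fld ψ g d) a x) * f x)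
    ((c.LLt a d).BM.mul_BC (hf.mul_LL hgl).BC)
    ((((LL.coord a).mul hgd).BM.sub (BM_fld c hgd a)).mul_BC hf.BC)
  have s5 : I V (fun x => fld ψ f a x * fld ψ g d x) = I V (fun x => fld ψ g d x * fld ψ f a x) := by
    congr 1; ext x; ring
  rw [s1, s5, e2]
  linarith

theorem Lop_eq (hs : ∀ x i j, tau ψ x i j = tau ψ x j i) (G : E n → ℝ) (x : E n) :
    Lop ψ G x = ∑ a, (fld ψ (pd a G) a x - x a * pd a G x) := by
  unfold Lop fld hess
  rw [Finset.sum_sub_distrib]
  congr 1
  rw [Finset.sum_comm]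
  refine Finset.sum_congr rfl fun i _ => Finset.sum_congr rfl fun j _ => ?_
  rw [hs x j i]

theorem stmtK1 : StmtK1 := by
  intro n ψ V F c hF
  have hpd : ∀ d, Test (pd d F) := fun d => Test.pd hF d
  have hN : ∀ a b, ContDiff ℝ (⊤ : ℕ∞) (pd a (pd b F)) := fun a b => contDiff_pd (hpd b).1 a
  have hU : ∀ b d, LC (fld ψ (pd d F) b) := fun b d => LC_fld c (hpd d) b
  -- pointwise form of `D_b (LF+F)`
  have hA : ∀ᵐ x, ∀ b, fld ψ (fun z => Lop ψ F z + F z) b x
      = - ∑ d, (x d * fld ψ (pd d F) b x - fld ψ (fld ψ (pd d F) b) d x) := by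
    have hall : ∀ᵐ x, ∀ d, DifferentiableAt ℝ (fld ψ (pd d F) d) x := by
      rw [ae_all_iff]; exact fun d => (hU d d).1.ae_diff
    have hcm : ∀ᵐ x, ∀ d, ∀ a b, fld ψ (fld ψ (pd d F) a) b x = fld ψ (fld ψ (pd d F) b) a x := by
      rw [ae_all_iff]; exact fun d => comm c (hpd d).1
    filter_upwards [hall, hcm] with x h1 h2
    intro b
    have hd1 : ∀ d, DifferentiableAt ℝ (pd d F) x := fun d =>
      ((hpd d).1.differentiable (by simp)).differentiableAt
    have hd0 : DifferentiableAt ℝ F x := (hF.1.differentiable (by simp)).differentiableAt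
    have hd2 : ∀ d, DifferentiableAt ℝ (fun z : E n => z d * pd d F z) x := fun d =>
      (diff_coord d x).mul (hd1 d)
    have e0 : (fun z => Lop ψ F z + F z)
        = fun z => (∑ d, (fld ψ (pd d F) d z - z d * pd d F z)) + F z := by
      ext z; rw [Lop_eq c.symm]
    have hd3 : ∀ d ∈ (Finset.univ : Finset (Fin n)),
        DifferentiableAt ℝ (fun z : E n => fld ψ (pd d F) d z - z d * pd d F z) x :=
      fun d _ => (h1 d).sub (hd2 d)
    have hd4 : DifferentiableAt ℝ (fun z : E n => ∑ d, (fld ψ (pd d F) d z - z d * pd d F z)) x := by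
      have := DifferentiableAt.fun_sum (𝕜 := ℝ) (u := (Finset.univ : Finset (Fin n))) hd3
      exact this
    rw [e0, fld_add hd4 hd0, fld_sum Finset.univ hd3]
    have e1 : ∀ d, fld ψ (fun z => fld ψ (pd d F) d z - z d * pd d F z) b x
        = fld ψ (fld ψ (pd d F) b) d x - x d * fld ψ (pd d F) b x - tau ψ x b d * pd d F x := by
      intro d
      rw [fld_sub (h1 d) (hd2 d), fld_mul (diff_coord d x) (hd1 d), fld_coord, h2 d d b]
      ring
    simp only [e1]
    have e2 : fld ψ F b x = ∑ d, tau ψ x b d * pd d F x := rfl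
    rw [e2, ← Finset.sum_add_distrib, ← Finset.sum_neg_distrib]
    refine Finset.sum_congr rfl fun d _ => ?_
    ring
  have hB : ∀ b x, Lop ψ (pd b F) x
      = - ∑ a, (x a * pd a (pd b F) x - fld ψ (pd a (pd b F)) a x) := by
    intro b x
    rw [Lop_eq c.symm, ← Finset.sum_neg_distrib]
    refine Finset.sum_congr rfl fun a _ => ?_
    ring
  have e1 : I V (fun x => ∑ b, fld ψ (fun z => Lop ψ F z + F z) b x * Lop ψ (pd b F) x)
      = I V (fun x => ∑ a, ∑ b, ∑ d, (x d * fld ψ (pd d F) b x - fld ψ (fld ψ (pd d F) b) d x)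
          * (x a * pd a (pd b F) x - fld ψ (pd a (pd b F)) a x)) := by
    apply I_congr
    filter_upwards [hA] with x hx
    rw [Finset.sum_comm]
    refine Finset.sum_congr rfl fun b _ => ?_
    rw [hx b, hB b, neg_mul_neg, mul_comm, Finset.sum_mul]
    refine Finset.sum_congr rfl fun a _ => ?_
    rw [Finset.mul_sum]
    refine Finset.sum_congr rfl fun d _ => ?_
    ring
  have bc1 : ∀ a b d, BC (fun x => (x d * fld ψ (pd d F) b x - fld ψ (fld ψ (pd d F) b) d x)
          * (x a * pd a (pd b F) x - fld ψ (pd a (pd b F)) a x)) := fun a b d =>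
    ((LC.LL_mul (LL.coord d) (hU b d)).BC.sub (BC_fld c (hU b d) d)).mul_BM
      (((LL.coord a).mul (LL.of_smooth (hN a b))).sub (LL_fld c (hN a b) a)).BM
  have bc2 : ∀ a b d, BC (fun x => tau ψ x a d * (fld ψ (pd d F) b x * pd a (pd b F) x)) := fun a b d =>
    (c.LLt a d).BM.mul_BC ((hU b d).mul_LL (LL.of_smooth (hN a b))).BC
  have bc3 : ∀ a b d, BC (fun x => fld ψ (fld ψ (pd d F) b) a x * fld ψ (pd a (pd b F)) d x) :=
    fun a b d => (BC_fld c (hU b d) a).mul_BM (LL_fld c (hN a b) d).BM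
  have sum3 : ∀ G : Fin n → Fin n → Fin n → E n → ℝ, (∀ a b d, BC (G a b d)) →
      I V (fun x => ∑ a, ∑ b, ∑ d, G a b d x) = ∑ a, ∑ b, ∑ d, I V (G a b d) := by
    intro G hG
    rw [I_sum c.hV Finset.univ (f := fun a x => ∑ b, ∑ d, G a b d x)
      (fun a => BC.sum _ fun b => BC.sum _ fun d => hG a b d)]
    refine Finset.sum_congr rfl fun a _ => ?_
    rw [I_sum c.hV Finset.univ (f := fun b x => ∑ d, G a b d x)
      (fun b => BC.sum _ fun d => hG a b d)]
    refine Finset.sum_congr rfl fun b _ => ?_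
    rw [I_sum c.hV Finset.univ (f := fun d x => G a b d x) (fun d => hG a b d)]
  rw [e1, sum3 _ bc1, sum3 _ bc2, sum3 _ bc3, ← Finset.sum_add_distrib]
  refine Finset.sum_congr rfl fun a _ => ?_
  rw [← Finset.sum_add_distrib]
  refine Finset.sum_congr rfl fun b _ => ?_
  rw [← Finset.sum_add_distrib]
  refine Finset.sum_congr rfl fun d _ => ?_
  exact I1 c (hU b d) (hN a b) a d

end Vale.Agent.P227.M.K
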