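import Vale.Agent.P227.M.ID.K.KStmt

/-! # P227/M/ID/K: the identity (K2) -/

open MeasureTheory
open scoped Topology

namespace Vale.Agent.P227.M.K

variable {n : ℕ}

theorem stmtK2 : StmtK2 := by
  intro n ψ V Q a d c hQ
  have hV := c.hV
  have hh : LL (pd a V) := LL_pdV hV a
  have hx : LL (fun x : E n => x d) := LL.coord d
  -- step 1
  have s1 := c1h c hh hQ d
  have b1 : BC (fun x => (x d * pd a V x) * Q x) := (hx.mul hh).BM.mul_BC hQ.BC
  have b2 : BC (fun x => fld ψ (pd a V) d x * Q x) := (BM_fld c hh d).mul_BC hQ.BC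
  have s1' : I V (fun x => (x d * pd a V x - fld ψ (pd a V) d x) * Q x)
      = I V (fun x => (x d * pd a V x) * Q x) - I V (fun x => fld ψ (pd a V) d x * Q x) := by
    rw [← I_sub hV b1 b2]
    congr 1; ext x; ring
  rw [s1'] at s1
  -- step 2
  have hxQ : LC (fun x => x d * Q x) := LC.LL_mul hx hQ
  have s2 := c2 hV hxQ a
  have b3 : BC (fun x => if a = d then Q x else 0) := by
    by_cases h : a = d
    · simpa [h] using hQ.BC
    · simpa [h] using BC.zero (n := n)
  have b4 : BC (fun x => x d * pd a Q x) := hx.BM.mul_BC (hQ.BC_pd a)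
  have s2' : I V (pd a fun x => x d * Q x)
      = I V (fun x => if a = d then Q x else 0) + I V (fun x => x d * pd a Q x) := by
    rw [← I_add hV b3 b4]
    apply I_congr
    filter_upwards [hQ.1.ae_diff] with x hx1
    rw [pd_mul (diff_coord d x) hx1, pd_coord]
    split_ifs <;> ring
  have s2'' : I V (fun x => pd a V x * (x d * Q x)) = I V (fun x => (x d * pd a V x) * Q x) := by
    congr 1; ext x; ring
  rw [s2', s2''] at s2
  -- step 3
  have b5 : ∀ e, BC (fun x => pd a (fun y => tau ψ y d e) x * pd e Q x) := fun e =>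
    ((c.LLt d e).BM_pd a).mul_BC (hQ.BC_pd e)
  have b6 : ∀ e, BC (fun x => (pd a V x * tau ψ x d e) * pd e Q x) := fun e =>
    (hh.mul (c.LLt d e)).BM.mul_BC (hQ.BC_pd e)
  have w : ∀ e, I V (fun x => (pd a (fun y => tau ψ y d e) x - pd a V x * tau ψ x d e) * pd e Q x)
      = I V (fun x => (pd e (fun y => tau ψ y d e) x - pd e V x * tau ψ x d e) * pd a Q x) := fun e =>
    W3 hV c.W (c.LLt d e) hQ a e
  have w1 : ∀ e, I V (fun x => (pd a (fun y => tau ψ y d e) x - pd a V x * tau ψ x d e) * pd e Q x)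
      = I V (fun x => pd a (fun y => tau ψ y d e) x * pd e Q x)
        - I V (fun x => (pd a V x * tau ψ x d e) * pd e Q x) := fun e => by
    rw [← I_sub hV (b5 e) (b6 e)]
    congr 1; ext x; ring
  have b7 : ∀ e, BC (fun x => (pd e (fun y => tau ψ y d e) x - pd e V x * tau ψ x d e) * pd a Q x) :=
    fun e => (((c.LLt d e).BM_pd e).sub ((LL_pdV hV e).mul (c.LLt d e)).BM).mul_BC (hQ.BC_pd a)
  have w2 : ∑ e, I V (fun x => (pd e (fun y => tau ψ y d e) x - pd e V x * tau ψ x d e) * pd a Q x)
      = - I V (fun x => x d * pd a Q x) := by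
    rw [← I_sum hV _ b7, ← I_neg]
    apply I_congr
    filter_upwards [c.ae_div] with x hd
    have h1 := hd d
    rw [← Finset.sum_mul, Finset.sum_sub_distrib]
    have e1 : ∑ e, pd e (fun y => tau ψ y d e) x = ∑ e, pd e (fun y => tau ψ y e d) x := by
      refine Finset.sum_congr rfl fun e _ => ?_
      congr 1
      funext y
      exact c.symm y d e
    have e2 : ∑ e, pd e V x * tau ψ x d e = ∑ e, pd e V x * tau ψ x e d :=
      Finset.sum_congr rfl fun e _ => by rw [c.symm x d e]
    rw [e1, e2, h1]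
    ring
  have w3 : ∑ e, I V (fun x => pd a (fun y => tau ψ y d e) x * pd e Q x)
      - ∑ e, I V (fun x => (pd a V x * tau ψ x d e) * pd e Q x)
      = - I V (fun x => x d * pd a Q x) := by
    rw [← w2, ← Finset.sum_sub_distrib]
    exact Finset.sum_congr rfl fun e _ => by rw [← w1 e, w e]
  have w4 : I V (fun x => pd a V x * fld ψ Q d x)
      = ∑ e, I V (fun x => (pd a V x * tau ψ x d e) * pd e Q x) := by
    rw [← I_sum hV _ b6]
    congr 1; ext x
    unfold fld
    rw [Finset.mul_sum]
    exact Finset.sum_congr rfl fun e _ => by ring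
  rw [I_sub hV b3 (BC.sum _ b5), I_sum hV _ b5]
  rw [w4] at s1
  linarith

end Vale.Agent.P227.M.K
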