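import Vale.Agent.P227.M.ID.K.KStmt

/-! # P227/M/ID/K: (K4) -/

open MeasureTheory
open scoped Topology

namespace Vale.Agent.P227.M.K

variable {n : ℕ}

/-- `L g = - ∑_a D*_a (∂_a g)` -/
theorem Lop_eq4 {ψ V : E n → ℝ} (c : Ctx ψ V) (g : E n → ℝ) (x : E n) :
    Lop ψ g x = - ∑ a, (x a * pd a g x - fld ψ (pd a g) a x) := by
  unfold Lop fld hess
  rw [Finset.sum_sub_distrib, neg_sub]
  congr 1
  rw [Finset.sum_comm]
  refine Finset.sum_congr rfl fun a _ => Finset.sum_congr rfl fun b _ => ?_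
  rw [c.symm x b a]

theorem stmtK4 : StmtK4 := by
  intro n ψ V F u c hF hu
  have hN : ∀ a b, LL (pd a (pd b F)) := fun a b => (Test.LC (Test.pd (Test.pd hF b) a)).1
  have hs : ∀ b, LC (fld ψ u b) := fun b => LC_fld c hu b
  have key : ∀ a b, I V (fun x => (x a * pd a (pd b F) x - fld ψ (pd a (pd b F)) a x) * fld ψ u b x)
      = I V (fun x => pd a (pd b F) x * fld ψ (fld ψ u b) a x) := fun a b =>
    (c1h c (hN a b) (hs b) a).symm
  have hB : ∀ a b, BC (fun x => (x a * pd a (pd b F) x - fld ψ (pd a (pd b F)) a x) * fld ψ u b x) := fun a b =>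
    ((((LL.coord a).BM.mul (hN a b).BM)).sub (BM_fld c (hN a b) a)).mul_BC (hs b).BC
  have hB' : ∀ a b, BC (fun x => fld ψ (fld ψ u b) a x * pd a (pd b F) x) := fun a b =>
    (BC_fld c (hs b) a).mul_BM (hN a b).BM
  have h1 : (fun x => ∑ b, fld ψ u b x * Lop ψ (pd b F) x)
      = fun x => - ∑ a, ∑ b, (x a * pd a (pd b F) x - fld ψ (pd a (pd b F)) a x) * fld ψ u b x := by
    ext x
    rw [Finset.sum_comm, ← Finset.sum_neg_distrib]
    refine Finset.sum_congr rfl fun b _ => ?_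
    rw [Lop_eq4 c, mul_neg, Finset.mul_sum]
    congr 1
    exact Finset.sum_congr rfl fun a _ => mul_comm _ _
  rw [h1, I_neg, I_sum c.hV _ fun a => BC.sum _ fun b => hB a b, I_sum c.hV _ fun a => BC.sum _ fun b => hB' a b]
  congr 1
  refine Finset.sum_congr rfl fun a _ => ?_
  rw [I_sum c.hV _ fun b => hB a b, I_sum c.hV _ fun b => hB' a b]
  refine Finset.sum_congr rfl fun b _ => ?_
  rw [key a b]
  congr 1
  ext x
  ring

end Vale.Agent.P227.M.K
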