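import Vale.Agent.P227.M.ID.K.KStmt

/-! # P227/M/ID/K: the identity (K4) -/

open MeasureTheory
open scoped Topology

namespace Vale.Agent.P227.M.K.H572

variable {n : ℕ}

theorem lop_eq {ψ V : E n → ℝ} (c : Ctx ψ V) (G : E n → ℝ) (x : E n) :
    Lop ψ G x = - ∑ a, (x a * pd a G x - fld ψ (pd a G) a x) := by
  unfold Lop fld hess
  rw [Finset.sum_sub_distrib]
  have h : ∑ i, ∑ j, tau ψ x i j * pd i (pd j G) x = ∑ a, ∑ b, tau ψ x a b * pd b (pd a G) x := by
    rw [Finset.sum_comm]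
    refine Finset.sum_congr rfl fun a _ => Finset.sum_congr rfl fun b _ => ?_
    rw [c.symm x b a]
  rw [h]
  ring

theorem stmtK4 : StmtK4 := by
  intro n ψ V F u c hF hu
  have hV := c.hV
  have hG : ∀ b, Test (pd b F) := fun b => Test.pd hF b
  have hH : ∀ a b, Test (pd a (pd b F)) := fun a b => Test.pd (hG b) a
  have hf : ∀ b, LC (fld ψ u b) := fun b => LC_fld c hu b
  have key : ∀ a b, I V (fun x => pd a (pd b F) x * fld ψ (fld ψ u b) a x)
      = I V (fun x => (x a * pd a (pd b F) x - fld ψ (pd a (pd b F)) a x) * fld ψ u b x) :=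
    fun a b => c1h c (Test.LC (hH a b)).1 (hf b) a
  have b1 : ∀ a b, BC (fun x => fld ψ (fld ψ u b) a x * pd a (pd b F) x) := fun a b =>
    (BC_fld c (hf b) a).mul_BM (Test.LC (hH a b)).1.BM
  have b2 : ∀ a b, BC (fun x => (x a * pd a (pd b F) x - fld ψ (pd a (pd b F)) a x) * fld ψ u b x) :=
    fun a b => (((LL.coord a).BM.mul (Test.LC (hH a b)).1.BM).sub
      (BM_fld c (Test.LC (hH a b)).1 a)).mul_BC (hf b).BC
  have e1 : I V (fun x => ∑ b, fld ψ u b x * Lop ψ (pd b F) x)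
      = - I V (fun x => ∑ b, ∑ a, (x a * pd a (pd b F) x - fld ψ (pd a (pd b F)) a x) * fld ψ u b x) := by
    rw [← I_neg]
    congr 1; ext x
    rw [← Finset.sum_neg_distrib]
    refine Finset.sum_congr rfl fun b _ => ?_
    rw [lop_eq c, ← Finset.sum_mul]
    ring
  have e2 : I V (fun x => ∑ b, ∑ a, (x a * pd a (pd b F) x - fld ψ (pd a (pd b F)) a x) * fld ψ u b x)
      = ∑ b, ∑ a, I V (fun x => (x a * pd a (pd b F) x - fld ψ (pd a (pd b F)) a x) * fld ψ u b x) := by
    rw [I_sum hV _ fun b => BC.sum _ fun a => b2 a b]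
    exact Finset.sum_congr rfl fun b _ => I_sum hV _ fun a => b2 a b
  have e3 : I V (fun x => ∑ a, ∑ b, fld ψ (fld ψ u b) a x * pd a (pd b F) x)
      = ∑ a, ∑ b, I V (fun x => fld ψ (fld ψ u b) a x * pd a (pd b F) x) := by
    rw [I_sum hV _ fun a => BC.sum _ fun b => b1 a b]
    exact Finset.sum_congr rfl fun a _ => I_sum hV _ fun b => b1 a b
  rw [e1, e2, e3, Finset.sum_comm]
  congr 1
  refine Finset.sum_congr rfl fun a _ => Finset.sum_congr rfl fun b _ => ?_
  rw [← key a b]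
  congr 1; ext x; ring

end Vale.Agent.P227.M.K.H572
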