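import Vale.Agent.P227.M.ID.K.Ibp

/-! # P227/M/ID/K: the four identities -/

open MeasureTheory
open scoped Topology

namespace Vale.Agent.P227.M.K

/-- (K1) : `E ∑_b D_b(LF+F) L(∂_bF) = E tr U² + E ∑ (D_a U_bd)(D_d N_ab)`, `U_bd = D_b ∂_dF` -/
def StmtK1 : Prop := ∀ (n : ℕ) (ψ V F : E n → ℝ), Ctx ψ V → Test F →
  I V (fun x => ∑ b, fld ψ (fun z => Lop ψ F z + F z) b x * Lop ψ (pd b F) x)
    = I V (fun x => ∑ a, ∑ b, ∑ d, tau ψ x a d * (fld ψ (pd d F) b x * pd a (pd b F) x))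
      + I V (fun x => ∑ a, ∑ b, ∑ d, fld ψ (fld ψ (pd d F) b) a x * fld ψ (pd a (pd b F)) d x)

/-- (K2) -/
def StmtK2 : Prop := ∀ (n : ℕ) (ψ V Q : E n → ℝ) (a d : Fin n), Ctx ψ V → LC Q →
  I V (fun x => fld ψ (pd a V) d x * Q x)
    = I V (fun x => (if a = d then Q x else 0) - ∑ e, pd a (fun y => tau ψ y d e) x * pd e Q x)

/-- (K3) : Bochner -/
def StmtK3 : Prop := ∀ (n : ℕ) (ψ V u : E n → ℝ), Ctx ψ V → Test u →
  I V (fun x => (Lop ψ u x) ^ 2)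
    = I V (fun x => ∑ a, ∑ b, hess V x a b * fld ψ u a x * fld ψ u b x)
      + I V (fun x => ∑ a, ∑ b, pd a (fld ψ u b) x * pd b (fld ψ u a) x)

/-- (K4) -/
def StmtK4 : Prop := ∀ (n : ℕ) (ψ V F u : E n → ℝ), Ctx ψ V → Test F → Test u →
  I V (fun x => ∑ b, fld ψ u b x * Lop ψ (pd b F) x)
    = - I V (fun x => ∑ a, ∑ b, fld ψ (fld ψ u b) a x * pd a (pd b F) x)

end Vale.Agent.P227.M.K
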