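import Vale.Agent.P227.M.ID.K.KeyB
import Vale.Agent.P227.M.ID.K.AlgQ
import Vale.Agent.P227.M.ID.K.AJ

/-! # P227/M/ID : `StmtKey` -/

namespace Vale.Agent.P227.M

/-- the key inequality of block ID -/
theorem stmtKey : StmtKey := K814.stmtKey_of K814.algQ K814.algJ

end Vale.Agent.P227.M
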