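import Vale.Agent.P227.M.ID.K.K1
import Vale.Agent.P227.M.ID.K.AlgPos
import Vale.Agent.P227.M.ID.K.AlgJ

/-! # P227/M/ID/K: `StmtKey` from (K1)-(K4) -/

open MeasureTheory Matrix
open scoped Topology

namespace Vale.Agent.P227.M.K

variable {n : ℕ} {ψ V : E n → ℝ}

theorem pd_comm {g : E n → ℝ} (hg : ContDiff ℝ (⊤ : ℕ∞) g) (i j : Fin n) :
    pd i (pd j g) = pd j (pd i g) := by
  ext x
  have h2 : IsSymmSndFDerivAt ℝ g x :=
    ((hg.of_le (m := 2) (WithTop.coe_le_coe.2 (le_top : (2 : ℕ∞) ≤ ⊤))).contDiffAt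
      (x := x)).isSymmSndFDerivAt (by simp)
  have hd : DifferentiableAt ℝ (fderiv ℝ g) x :=
    ((hg.fderiv_right (m := (⊤ : ℕ∞)) (by simp)).differentiable (by simp)).differentiableAt
  have : ∀ i j : Fin n, pd i (pd j g) x = fderiv ℝ (fderiv ℝ g) x (ei i) (ei j) := by
    intro i j
    unfold pd
    rw [fderiv_clm_apply hd (by fun_prop)]
    simp
  rw [this, this]
  exact h2 _ _

/-- pointwise positivity of the quadratic form in `J - N τ` -/
theorem posJ {t N J : Matrix (Fin n) (Fin n) ℝ} (ht : t.PosDef) (hN : N.IsSymm)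
    (hJ : (t * J).IsSymm) :
    0 ≤ ∑ a, ∑ b, J a b * J b a - 2 * ∑ a, ∑ b, (t * J) a b * N a b
      + ∑ a, ∑ b, (t * N) a b * (t * N) b a := by
  have tr2 : ∀ A C : Matrix (Fin n) (Fin n) ℝ, ∑ a, ∑ b, A a b * C b a = (A * C).trace := by
    intro A C
    simp [Matrix.trace, Matrix.mul_apply]
  have e3 : ∑ a, ∑ b, (t * J) a b * N a b = (t * J * N).trace := by
    rw [← tr2]
    refine Finset.sum_congr rfl fun a _ => Finset.sum_congr rfl fun b _ => ?_
    rw [← hN.apply a b]
  have h := KAlg.trace_J ht hN hJ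
  have f1 : (J * (N * t)).trace = (t * J * N).trace := by
    rw [← Matrix.mul_assoc, Matrix.trace_mul_comm, ← Matrix.mul_assoc]
  have f3 : (N * t * (N * t)).trace = (t * N * (t * N)).trace := by
    rw [Matrix.mul_assoc, Matrix.trace_mul_comm]
    simp only [Matrix.mul_assoc]
  rw [f1, f3] at h
  rw [tr2, tr2, e3]
  linarith

theorem stmtKey_of (hK1 : StmtK1) (hK2 : StmtK2) (hK3 : StmtK3) (hK4 : StmtK4)
    (hctx : ∀ (n : ℕ) (ψ V : E n → ℝ) (c C M : ℝ), Nice V c C → MM ψ V c C M → Ctx ψ V) :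
    StmtKey := by
  intro n ψ V c₀ C₀ M hNice hMM F u hF hu
  have c : Ctx ψ V := hctx n ψ V c₀ C₀ M hNice hMM
  have hpd : ∀ d, Test (pd d F) := fun d => Test.pd hF d
  have hNs : ∀ a b, ContDiff ℝ (⊤ : ℕ∞) (pd a (pd b F)) := fun a b => contDiff_pd (hpd b).1 a
  have hU : ∀ b d, LC (fld ψ (pd d F) b) := fun b d => LC_fld c (hpd d) b
  have hs : ∀ b, LC (fld ψ u b) := fun b => LC_fld c hu b
  -- the functions
  set Q : Fin n → Fin n → E n → ℝ := fun a d x => ∑ b, fld ψ (pd b F) a x * fld ψ (pd d F) b x with hQ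
  have hQLC : ∀ a d, LC (Q a d) := fun a d => LC.sum _ fun b => (hU a b).mul_LL (hU b d).1
  set fA1 : E n → ℝ := fun x =>
    (hess V x * tau ψ x * hess F x * tau ψ x * hess F x * tau ψ x).trace with hfA1
  set fA2 : E n → ℝ := fun x => ∑ a, ∑ b, hess V x a b * fld ψ u a x * fld ψ u b x with hfA2
  set fB2 : E n → ℝ := fun x => ∑ b, fld ψ (fun z => Lop ψ F z + F z + u z) b x * Lop ψ (pd b F) x
    with hfB2
  set T0 : E n → ℝ := fun x => ∑ a, ∑ b, ∑ d, tau ψ x a d * (fld ψ (pd d F) b x * pd a (pd b F) x)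
    with hT0
  set T1 : E n → ℝ := fun x =>
    ∑ a, ∑ b, ∑ d, fld ψ (fld ψ (pd d F) b) a x * fld ψ (pd a (pd b F)) d x with hT1
  set T2 : E n → ℝ := fun x => ∑ a, ∑ d, ∑ e, pd a (fun y => tau ψ y d e) x * pd e (Q a d) x with hT2
  set TU : E n → ℝ := fun x => ∑ a, Q a a x with hTU
  set JJ : E n → ℝ := fun x => ∑ a, ∑ b, pd a (fld ψ u b) x * pd b (fld ψ u a) x with hJJ
  set JN : E n → ℝ := fun x => ∑ a, ∑ b, fld ψ (fld ψ u b) a x * pd a (pd b F) x with hJN
  -- classes
  have bT0 : BC T0 := BC.sum _ fun a => BC.sum _ fun b => BC.sum _ fun d =>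
    (c.LLt a d).BM.mul_BC ((hU b d).mul_LL (LL.of_smooth (hNs a b))).BC
  have bT1 : BC T1 := BC.sum _ fun a => BC.sum _ fun b => BC.sum _ fun d =>
    (BC_fld c (hU b d) a).mul_BM (LL_fld c (hNs a b) d).BM
  have bT2' : ∀ a d, BC (fun x => ∑ e, pd a (fun y => tau ψ y d e) x * pd e (Q a d) x) := fun a d =>
    BC.sum _ fun e => ((c.LLt d e).BM_pd a).mul_BC ((hQLC a d).BC_pd e)
  have bT2 : BC T2 := BC.sum _ fun a => BC.sum _ fun d => bT2' a d
  have bTU : BC TU := BC.sum _ fun a => (hQLC a a).BC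
  have bJJ : BC JJ := BC.sum _ fun a => BC.sum _ fun b => ((hs b).BC_pd a).mul_BM ((hs a).1.BM_pd b)
  have bJN : BC JN := BC.sum _ fun a => BC.sum _ fun b =>
    (BC_fld c (hs b) a).mul_BM (LL.of_smooth (hNs a b)).BM
  -- (A1)
  have eA1 : I V fA1 = I V TU - I V T2 := by
    have e1 : I V fA1 = I V (fun x => ∑ a, ∑ d, fld ψ (pd a V) d x * Q a d x) := by
      apply I_congr
      filter_upwards with x
      have h1 : ∀ a d, fld ψ (pd a V) d x = (tau ψ x * hess V x) d a := by
        intro a d
        rw [Matrix.mul_apply]; rfl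
      have h2 : ∀ a d, Q a d x = (tau ψ x * hess F x * (tau ψ x * hess F x)) a d := by
        intro a d
        have : ∀ a d, fld ψ (pd a F) d x = (tau ψ x * hess F x) d a := by
          intro a d
          rw [Matrix.mul_apply]; rfl
        rw [Matrix.mul_apply]
        simp only [hQ, this]
      simp only [h1, h2]
      rw [Finset.sum_comm]
      have h3 : ∑ y, ∑ x_1, (tau ψ x * hess V x) y x_1 * (tau ψ x * hess F x * (tau ψ x * hess F x)) x_1 y
          = (tau ψ x * hess V x * (tau ψ x * hess F x * (tau ψ x * hess F x))).trace := by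
        simp only [Matrix.trace, Matrix.diag_apply, Matrix.mul_apply (M := tau ψ x * hess V x)]
      rw [h3, hfA1]
      simp only [Matrix.mul_assoc]
      rw [Matrix.trace_mul_comm (tau ψ x)]
      simp only [Matrix.mul_assoc]
    rw [e1]
    have b1 : ∀ a d, BC (fun x => fld ψ (pd a V) d x * Q a d x) := fun a d =>
      (LL_fld c (contDiff_pd c.hV a) d).BM.mul_BC (hQLC a d).BC
    have bq : ∀ a d, BC (fun x => if a = d then Q a d x else 0) := by
      intro a d
      by_cases h : a = d
      · simpa [h] using (hQLC d d).BC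
      · simpa [h] using BC.zero (n := n)
    rw [I_sum c.hV Finset.univ (f := fun a x => ∑ d, fld ψ (pd a V) d x * Q a d x)
      (fun a => BC.sum _ fun d => b1 a d)]
    have e2 : ∀ a, I V (fun x => ∑ d, fld ψ (pd a V) d x * Q a d x)
        = I V (fun x => Q a a x)
          - I V (fun x => ∑ d, ∑ e, pd a (fun y => tau ψ y d e) x * pd e (Q a d) x) := by
      intro a
      rw [I_sum c.hV Finset.univ (f := fun d x => fld ψ (pd a V) d x * Q a d x) (fun d => b1 a d)]
      have e3 : ∀ d, I V (fun x => fld ψ (pd a V) d x * Q a d x)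
          = I V (fun x => if a = d then Q a d x else 0)
            - I V (fun x => ∑ e, pd a (fun y => tau ψ y d e) x * pd e (Q a d) x) := by
        intro d
        rw [hK2 n ψ V (Q a d) a d c (hQLC a d), I_sub c.hV (bq a d) (bT2' a d)]
      rw [Finset.sum_congr rfl fun d _ => e3 d, Finset.sum_sub_distrib,
        ← I_sum c.hV Finset.univ (f := fun d x => if a = d then Q a d x else 0) (fun d => bq a d),
        ← I_sum c.hV Finset.univ
          (f := fun d x => ∑ e, pd a (fun y => tau ψ y d e) x * pd e (Q a d) x) (fun d => bT2' a d)]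
      congr 2
      ext x
      simp
    rw [Finset.sum_congr rfl fun a _ => e2 a, Finset.sum_sub_distrib,
      ← I_sum c.hV Finset.univ (f := fun a x => Q a a x) (fun a => (hQLC a a).BC),
      ← I_sum c.hV Finset.univ
        (f := fun a x => ∑ d, ∑ e, pd a (fun y => tau ψ y d e) x * pd e (Q a d) x)
        (fun a => BC.sum _ fun d => bT2' a d)]
  -- (B2)
  have eB2 : I V fB2 = I V T0 + I V T1 - I V JN := by
    have hLC : LC (fun z => Lop ψ F z + F z) := by
      have : LC (fun z => (∑ a, (fld ψ (pd a F) a z - z a * pd a F z)) + F z) := by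
        refine LC.add (LC.sum _ fun a => ?_) (Test.LC hF)
        have h1 := (hU a a).add ((LC.LL_mul (LL.coord a) (Test.LC (hpd a))).neg)
        simpa [sub_eq_add_neg] using h1
      have e : (fun z => Lop ψ F z + F z)
          = fun z => (∑ a, (fld ψ (pd a F) a z - z a * pd a F z)) + F z := by
        ext z; rw [Lop_eq c.symm]
      rw [e]; exact this
    have hLF : ∀ b, LL (Lop ψ (pd b F)) := by
      intro b
      have e : Lop ψ (pd b F)
          = fun z => (∑ a, (fld ψ (pd a (pd b F)) a z - z a * pd a (pd b F) z)) := by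
        ext z; rw [Lop_eq c.symm]
      rw [e]
      exact LL.sum _ fun a => (LL_fld c (hNs a b) a).sub ((LL.coord a).mul (LL.of_smooth (hNs a b)))
    have e1 : I V fB2 = I V (fun x =>
        (∑ b, fld ψ (fun z => Lop ψ F z + F z) b x * Lop ψ (pd b F) x)
          + ∑ b, fld ψ u b x * Lop ψ (pd b F) x) := by
      apply I_congr
      filter_upwards [hLC.1.ae_diff] with x hx
      have hdu : DifferentiableAt ℝ u x := (hu.1.differentiable (by simp)).differentiableAt
      rw [← Finset.sum_add_distrib]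
      refine Finset.sum_congr rfl fun b _ => ?_
      rw [fld_add (f := fun z => Lop ψ F z + F z) (g := u) hx hdu]
      ring
    rw [e1, I_add c.hV
      (BC.sum _ fun b => (BC_fld c hLC b).mul_BM (hLF b).BM)
      (BC.sum _ fun b => (hs b).BC.mul_BM (hLF b).BM),
      hK1 n ψ V F c hF, hK4 n ψ V F u c hF hu]
    ring
  have eB1 : I V (fun x => (Lop ψ u x) ^ 2) = I V fA2 + I V JJ := hK3 n ψ V u c hu
  -- positivity
  have hpos : 0 ≤ I V (fun x => (JJ x - 2 * JN x + TU x) + (2 * T1 x + T2 x) + 2 * (T0 x - TU x)) := by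
    unfold I
    apply integral_nonneg_of_ae
    have hcm := comm c hu.1
    filter_upwards [c.ae_dif, c.ae_T, hcm, ae_all_iff.mpr fun b => (hs b).1.ae_diff] with x ht hT hcx hsd
    set t : Matrix (Fin n) (Fin n) ℝ := tau ψ x with htdef
    set N : Matrix (Fin n) (Fin n) ℝ := hess F x with hNdef
    have htp : t.PosDef := c.pos x
    have hNsym : N.IsSymm := by
      ext i j
      exact congrFun (pd_comm hF.1 j i) x
    set p : Fin n → Matrix (Fin n) (Fin n) ℝ := fun e => Matrix.of fun i j =>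
      pd e (fun y => tau ψ y i j) x with hp
    set ν : Fin n → Matrix (Fin n) (Fin n) ℝ := fun e => Matrix.of fun i j =>
      pd e (pd i (pd j F)) x with hν
    have hpsym : ∀ e, (p e).IsSymm := by
      intro e
      ext i j
      have : (fun y => tau ψ y i j) = fun y => tau ψ y j i := by ext y; rw [c.symm]
      simp [hp, this]
    have hνsym : ∀ e, (ν e).IsSymm := by
      intro e
      ext i j
      simp only [hν, Matrix.transpose_apply, Matrix.of_apply]
      rw [pd_comm hF.1 j i]
    have hν1 : ∀ a b c, ν a b c = ν b a c := by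
      intro a b c'
      simp only [hν, Matrix.of_apply]
      rw [pd_comm (contDiff_pd hF.1 c') a b]
    have hP : ∀ a b d, ∑ c, t a c * p c b d = ∑ c, t b c * p c a d := by
      intro a b d
      exact hT a b d
    have hpos1 := KAlg.algPos htp hNsym hpsym hνsym hν1 hP
    -- `∂_e U`
    have hUx : ∀ b d, fld ψ (pd d F) b x = (t * N) b d := by
      intro b d
      rw [Matrix.mul_apply]; rfl
    have hdN : ∀ i j, DifferentiableAt ℝ (pd i (pd j F)) x := fun i j =>
      ((hNs i j).differentiable (by simp)).differentiableAt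
    have hXe : ∀ e b d, pd e (fld ψ (pd d F) b) x = KAlg.X t N p ν e b d := by
      intro e b d
      have e0 : (fld ψ (pd d F) b) = fun y => ∑ c, tau ψ y b c * pd c (pd d F) y := rfl
      rw [e0, pd_sum (f := fun c y => tau ψ y b c * pd c (pd d F) y) Finset.univ
        (fun c _ => (ht b c).mul (hdN c d))]
      unfold KAlg.X
      rw [Matrix.add_apply, Matrix.mul_apply, Matrix.mul_apply, ← Finset.sum_add_distrib]
      refine Finset.sum_congr rfl fun c' _ => ?_
      rw [pd_mul (ht b c') (hdN c' d)]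
      simp only [hp, hν, Matrix.of_apply, hNdef, htdef, hess]
      ring
    have hUd : ∀ b d, DifferentiableAt ℝ (fld ψ (pd d F) b) x := by
      intro b d
      have e0 : (fld ψ (pd d F) b) = fun y => ∑ c, tau ψ y b c * pd c (pd d F) y := rfl
      rw [e0]
      exact DifferentiableAt.fun_sum fun c _ => (ht b c).mul (hdN c d)
    have t1 : T1 x = ∑ a, ∑ b, ∑ d, (∑ e, t a e * KAlg.X t N p ν e b d) * (∑ f, t d f * ν f a b) := by
      simp only [hT1]
      refine Finset.sum_congr rfl fun a _ => Finset.sum_congr rfl fun b _ =>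
        Finset.sum_congr rfl fun d _ => ?_
      congr 1
      unfold fld
      refine Finset.sum_congr rfl fun e _ => ?_
      exact congrArg (fun r => t a e * r) (hXe e b d)
    have t2 : T2 x = ∑ a, ∑ d, ∑ e, p a d e
        * (KAlg.X t N p ν e * (t * N) + (t * N) * KAlg.X t N p ν e) a d := by
      simp only [hT2]
      refine Finset.sum_congr rfl fun a _ => Finset.sum_congr rfl fun d _ =>
        Finset.sum_congr rfl fun e _ => ?_
      have e0 : pd e (Q a d) x = (KAlg.X t N p ν e * (t * N) + (t * N) * KAlg.X t N p ν e) a d := by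
        simp only [hQ]
        rw [pd_sum (f := fun b x => fld ψ (pd b F) a x * fld ψ (pd d F) b x) Finset.univ
          (fun b _ => (hUd a b).mul (hUd b d))]
        rw [Matrix.add_apply, Matrix.mul_apply, Matrix.mul_apply, ← Finset.sum_add_distrib]
        refine Finset.sum_congr rfl fun b _ => ?_
        rw [pd_mul (hUd a b) (hUd b d), hXe, hXe, hUx, hUx]
        ring
      rw [e0]; rfl
    have tU : TU x = ∑ a, ∑ b, (t * N) a b * (t * N) b a := by
      simp only [hTU, hQ, hUx]
    have t0 : T0 x = TU x := by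
      rw [tU]
      simp only [hT0, hUx]
      rw [Finset.sum_comm]
      refine Finset.sum_congr rfl fun b _ => ?_
      rw [Finset.sum_comm]
      refine Finset.sum_congr rfl fun d _ => ?_
      rw [Matrix.mul_apply (M := t) (N := N) (i := d) (k := b), Finset.mul_sum]
      refine Finset.sum_congr rfl fun a _ => ?_
      have h1 : tau ψ x a d = t d a := c.symm x a d
      have h2 : pd a (pd b F) x = N a b := rfl
      rw [h1, h2]; ring
    set J : Matrix (Fin n) (Fin n) ℝ := Matrix.of fun a b => pd a (fld ψ u b) x with hJ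
    have hJs : (t * J).IsSymm := by
      ext a b
      rw [Matrix.transpose_apply, Matrix.mul_apply, Matrix.mul_apply]
      exact hcx a b
    have hpos2 := posJ htp hNsym hJs
    have tJJ : JJ x = ∑ a, ∑ b, J a b * J b a := rfl
    have tJN : JN x = ∑ a, ∑ b, (t * J) a b * N a b := by
      simp only [hJN]
      refine Finset.sum_congr rfl fun a _ => Finset.sum_congr rfl fun b _ => ?_
      rw [Matrix.mul_apply]
      rfl
    have : 0 ≤ (JJ x - 2 * JN x + TU x) + (2 * T1 x + T2 x) + 2 * (T0 x - TU x) := by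
      rw [t0, t1, t2, tJJ, tJN, tU]
      rw [sub_self, mul_zero, add_zero]
      exact add_nonneg hpos2 hpos1
    exact mul_nonneg this (Real.exp_pos _).le
  have hI : I V (fun x => (JJ x - 2 * JN x + TU x) + (2 * T1 x + T2 x) + 2 * (T0 x - TU x))
      = I V JJ - 2 * I V JN + 2 * I V T1 + I V T2 + 2 * I V T0 - I V TU := by
    have e : (fun x => (JJ x - 2 * JN x + TU x) + (2 * T1 x + T2 x) + 2 * (T0 x - TU x))
        = fun x => (JJ x + (T2 x + ((T0 x + T0 x) + (T1 x + T1 x)))) - (TU x + (JN x + JN x)) := by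
      ext x; ring
    rw [e, I_sub c.hV (bJJ.add (bT2.add ((bT0.add bT0).add (bT1.add bT1)))) (bTU.add (bJN.add bJN)),
      I_add c.hV bJJ (bT2.add ((bT0.add bT0).add (bT1.add bT1))),
      I_add c.hV bT2 ((bT0.add bT0).add (bT1.add bT1)),
      I_add c.hV (bT0.add bT0) (bT1.add bT1), I_add c.hV bT0 bT0, I_add c.hV bT1 bT1,
      I_add c.hV bTU (bJN.add bJN), I_add c.hV bJN bJN]
    ring
  rw [hI] at hpos
  have hZ : 0 ≤ ∫ x, Real.exp (-V x) := integral_nonneg fun x => (Real.exp_pos _).le
  have hfin : I V fA1 + I V fA2 ≤ I V (fun x => (Lop ψ u x) ^ 2) + 2 * I V fB2 := by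
    rw [eA1, eB1, eB2]; linarith
  have hdiv := div_le_div_of_nonneg_right hfin hZ
  unfold Ex
  have r1 : ∀ f : E n → ℝ, ∫ x, f x * Real.exp (-V x) = I V f := fun f => rfl
  rw [r1 fA1, r1 fA2, r1 fB2, r1 (fun x => (Lop ψ u x) ^ 2)]
  calc _ = (I V fA1 + I V fA2) / (∫ x, Real.exp (-V x)) := by rw [add_div]
    _ ≤ _ := hdiv
    _ = _ := by rw [add_div]; ring

end Vale.Agent.P227.M.K
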