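import Vale.Agent.P227.M.ID.K.Uf
import Vale.Agent.P227.M.ID.K.AlgStmt

/-! # P227/M/ID/K : assembly of `StmtKey`, part A (regularity and pointwise formulas) -/

open MeasureTheory Filter Topology Set Metric
open scoped NNReal ENNReal ContDiff

namespace Vale.Agent.P227.M.K814

variable {n : ℕ} {ψ V : E n → ℝ} {c C M : ℝ}

theorem cd_pd {F : E n → ℝ} (hF : ContDiff ℝ (⊤ : ℕ∞) F) (a : Fin n) : ContDiff ℝ (⊤ : ℕ∞) (pd a F) :=
  (hF.fderiv_right (m := (⊤ : ℕ∞)) (by norm_cast)).clm_apply contDiff_const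

theorem Test.pd {F : E n → ℝ} (hF : Test F) (a : Fin n) : Test (pd a F) :=
  ⟨cd_pd hF.1 a, hcs_pd hF.2 a⟩

theorem cd_nat {F : E n → ℝ} (hF : ContDiff ℝ (⊤ : ℕ∞) F) (k : ℕ) : ContDiff ℝ k F :=
  contDiff_infty.1 hF k

theorem cd_one {F : E n → ℝ} (hF : ContDiff ℝ (⊤ : ℕ∞) F) : ContDiff ℝ 1 F := by
  exact_mod_cast cd_nat hF 1

theorem cd_two {F : E n → ℝ} (hF : ContDiff ℝ (⊤ : ℕ∞) F) : ContDiff ℝ 2 F := by
  exact_mod_cast cd_nat hF 2

theorem cd_diff {F : E n → ℝ} (hF : ContDiff ℝ (⊤ : ℕ∞) F) (x : E n) : DifferentiableAt ℝ F x :=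
  ((cd_one hF).differentiable (by simp)).differentiableAt

theorem ll_cd {F : E n → ℝ} (hF : ContDiff ℝ (⊤ : ℕ∞) F) : LocallyLipschitz F :=
  ll_of_contDiff (cd_one hF)

theorem test_hess {F : E n → ℝ} (hF : Test F) (a b : Fin n) : Test (fun x => hess F x a b) :=
  Test.pd (Test.pd hF b) a

theorem cd_hess {F : E n → ℝ} (hF : ContDiff ℝ (⊤ : ℕ∞) F) (a b : Fin n) :
    ContDiff ℝ (⊤ : ℕ∞) (fun x => hess F x a b) := cd_pd (cd_pd hF b) a

theorem lc_Uf (h : MM ψ V c C M) {F : E n → ℝ} (hF : Test F) (b d : Fin n) : LC (Uf ψ F b d) :=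
  LC.sum _ fun c _ => LC.mul_left (ll_tau h b c) (Test.lc (test_hess hF c d))

theorem lc_fld (h : MM ψ V c C M) {u : E n → ℝ} (hu : Test u) (b : Fin n) : LC (fld ψ u b) :=
  LC.sum _ fun c _ => LC.mul_left (ll_tau h b c) (Test.lc (Test.pd hu c))

theorem ll_Lop (h : MM ψ V c C M) {F : E n → ℝ} (hF : ContDiff ℝ (⊤ : ℕ∞) F) :
    LocallyLipschitz (Lop ψ F) := by
  refine ll_sub (ll_sum _ fun i _ => ll_sum _ fun j _ => ll_mul (ll_tau h i j) (ll_cd (cd_hess hF i j)))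
    (ll_sum _ fun i _ => ll_mul (ll_coord i) (ll_cd (cd_pd hF i)))

theorem lc_Lop (h : MM ψ V c C M) {F : E n → ℝ} (hF : Test F) : LC (Lop ψ F) := by
  refine LC.sub (LC.sum _ fun i _ => LC.sum _ fun j _ => LC.mul_left (ll_tau h i j) (Test.lc (test_hess hF i j)))
    (LC.sum _ fun i _ => LC.mul_left (ll_coord i) (Test.lc (Test.pd hF i)))

theorem ci_fld (h : MM ψ V c C M) {g : E n → ℝ} (hg : LC g) (b : Fin n) : CI (fld ψ g b) :=
  CI.sum _ fun c _ => CI.mul_left (Bd.of_ll (ll_tau h b c)) (CI.pd hg c)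

theorem fld_eq_Dd (ψ g : E n → ℝ) (b : Fin n) : fld ψ g b = Dd ψ b g := rfl

/-- derivative of `U` -/
theorem pd_Uf {x : E n} (hx : Good ψ x) {F : E n → ℝ} (hF : ContDiff ℝ (⊤ : ℕ∞) F) (e b d : Fin n) :
    pd e (Uf ψ F b d) x =
      XX (tau ψ x) (hess F x) (fun e => Matrix.of fun i j => pd e (fun y => tau ψ y i j) x)
        (fun e => Matrix.of fun i j => pd e (fun y => hess F y i j) x) e b d := by
  unfold Uf XX
  rw [Vale.Agent.P227.M.rpd_sum fun c _ => (hx.2 b c).fun_mul (cd_diff (cd_hess hF c d) x)]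
  simp only [Matrix.add_apply, Matrix.mul_apply, Matrix.of_apply, ← Finset.sum_add_distrib]
  exact Finset.sum_congr rfl fun c _ =>
    Vale.Agent.P227.M.rpd_mul (hx.2 b c) (cd_diff (cd_hess hF c d) x)

/-- `∑_a (V_a U_ab - ∂_a U_ab) = - L ∂_b F` -/
theorem ae_E2 (h : MM ψ V c C M) {x : E n} (hx : Good ψ x) {F : E n → ℝ}
    (hF : ContDiff ℝ (⊤ : ℕ∞) F) (b : Fin n) :
    ∑ a, (pd a V x * Uf ψ F a b x - pd a (Uf ψ F a b) x) = - Lop ψ (pd b F) x := by
  have e1 : ∀ a, pd a (Uf ψ F a b) x = ∑ k, (pd a (fun y => tau ψ y a k) x * hess F x k b +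
      tau ψ x a k * pd a (fun y => hess F y k b) x) := by
    intro a
    unfold Uf
    rw [Vale.Agent.P227.M.rpd_sum fun k _ => (hx.2 a k).fun_mul (cd_diff (cd_hess hF k b) x)]
    exact Finset.sum_congr rfl fun k _ =>
      Vale.Agent.P227.M.rpd_mul (hx.2 a k) (cd_diff (cd_hess hF k b) x)
  have e2 : ∑ a, (pd a V x * Uf ψ F a b x - pd a (Uf ψ F a b) x) =
      (∑ k, - (∑ a, (pd a (fun y => tau ψ y a k) x - tau ψ x a k * pd a V x)) * hess F x k b)
        - ∑ a, ∑ k, tau ψ x a k * pd a (fun y => hess F y k b) x := by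
    simp only [e1, Uf, Finset.mul_sum, Finset.sum_mul, ← Finset.sum_neg_distrib, neg_mul]
    rw [Finset.sum_comm (f := fun k a => -((pd a (fun y => tau ψ y a k) x - tau ψ x a k * pd a V x) *
      hess F x k b)), ← Finset.sum_sub_distrib]
    refine Finset.sum_congr rfl fun a _ => ?_
    rw [← Finset.sum_sub_distrib, ← Finset.sum_sub_distrib]
    exact Finset.sum_congr rfl fun k _ => by ring
  rw [e2]
  have e3 : ∀ k, (∑ a, (pd a (fun y => tau ψ y a k) x - tau ψ x a k * pd a V x)) = - x k :=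
    fun k => rad_div h hx k
  simp only [e3, neg_neg]
  unfold Lop
  rw [neg_sub]
  rfl

/-- `∑_a (x_a N_ab - D_a N_ab) = - L ∂_b F` -/
theorem ae_E2' (h : MM ψ V c C M) {x : E n} {F : E n → ℝ} (b : Fin n) :
    ∑ a, (x a * hess F x a b - Dd ψ a (fun y => hess F y a b) x) = - Lop ψ (pd b F) x := by
  unfold Lop
  rw [neg_sub, Finset.sum_sub_distrib]
  congr 1
  unfold Dd
  rw [Finset.sum_comm]
  refine Finset.sum_congr rfl fun i _ => Finset.sum_congr rfl fun j _ => ?_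
  rw [rad_tau_symm h x j i]
  rfl

theorem trace_A1 (x : E n) (F : E n → ℝ) :
    ∑ a, ∑ b, ∑ d, Dd ψ d (pd a V) x * Uf ψ F a b x * Uf ψ F b d x =
      (hess V x * tau ψ x * hess F x * tau ψ x * hess F x * tau ψ x).trace := by
  have e1 : ∀ i j, (tau ψ x * hess F x) i j = Uf ψ F i j x := fun i j => by
    simp only [Matrix.mul_apply, Uf]
  have e2 : ∀ a d, (hess V x).transpose.transpose a d = hess V x a d := fun _ _ => rfl
  have e3 : (hess V x * tau ψ x * hess F x * tau ψ x * hess F x * tau ψ x) =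
      hess V x * ((tau ψ x * hess F x) * ((tau ψ x * hess F x) * tau ψ x)) := by
    simp only [Matrix.mul_assoc]
  rw [e3, Matrix.trace]
  simp only [Matrix.diag_apply, Matrix.mul_apply (M := hess V x)]
  have e4 : ∀ i j, ((tau ψ x * hess F x) * ((tau ψ x * hess F x) * tau ψ x)) i j =
      ∑ b, ∑ d, Uf ψ F i b x * Uf ψ F b d x * tau ψ x d j := by
    intro i j
    rw [Matrix.mul_apply]
    refine Finset.sum_congr rfl fun b _ => ?_
    rw [e1, Matrix.mul_apply (M := tau ψ x * hess F x), Finset.mul_sum]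
    refine Finset.sum_congr rfl fun d _ => ?_
    rw [e1]; ring
  simp only [e4, Dd, Finset.mul_sum, Finset.sum_mul]
  -- LHS : ∑ a b d e, tau d e * pd e (pd a V) * U a b * U b d
  -- RHS : ∑ i j b d, hess V i j * (U j b * U b d * tau d i)
  have e5 : (∑ a, ∑ b, ∑ d, ∑ e, tau ψ x d e * pd e (pd a V) x * Uf ψ F a b x * Uf ψ F b d x) =
      ∑ a, ∑ e, ∑ b, ∑ d, tau ψ x d e * pd e (pd a V) x * Uf ψ F a b x * Uf ψ F b d x := by
    refine Finset.sum_congr rfl fun a _ => ?_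
    rw [Finset.sum_comm (f := fun e b => ∑ d, tau ψ x d e * pd e (pd a V) x * Uf ψ F a b x * Uf ψ F b d x)]
    refine Finset.sum_congr rfl fun b _ => ?_
    rw [Finset.sum_comm]
  rw [e5, Finset.sum_comm]
  refine Finset.sum_congr rfl fun e _ => Finset.sum_congr rfl fun a _ =>
    Finset.sum_congr rfl fun b _ => Finset.sum_congr rfl fun d _ => ?_
  have : hess V x e a = pd e (pd a V) x := rfl
  rw [this]; ring

end Vale.Agent.P227.M.K814
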