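import Vale.Agent.P227.M.ID.K.KeyA
import Vale.Agent.P227.M.ID.K.Ae

/-! # P227/M/ID/K : assembly of `StmtKey`, part B -/

open MeasureTheory Filter Topology Set Metric
open scoped NNReal ENNReal ContDiff

namespace Vale.Agent.P227.M.K814

variable {n : ℕ} {ψ V : E n → ℝ} {c C M : ℝ}

theorem posDef_tau (h : MM ψ V c C M) (x : E n) : (tau ψ x).PosDef := by
  have hH : (hess ψ x).PosDef := by
    refine Matrix.PosDef.of_dotProduct_mulVec_pos ?_ ?_
    · ext i j
      simp only [Matrix.conjTranspose_apply, star_trivial]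
      exact rad_hess_symm h.C2 x j i
    · intro v hv
      have h1 := h.lower x (WithLp.toLp 2 v)
      have h2 : 0 < ‖(WithLp.toLp 2 v : E n)‖ := by
        rw [norm_pos_iff]
        intro h0
        apply hv
        have := congrArg (WithLp.ofLp) h0
        simpa using this
      have h3 : qf (hess ψ x) (WithLp.toLp 2 v) = star v ⬝ᵥ (hess ψ x).mulVec v := by
        rw [rad_qf]
        simp [dotProduct]
      rw [← h3]
      have := h.c_pos
      have h4 : 0 < c * ‖(WithLp.toLp 2 v : E n)‖ ^ 2 := by positivity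
      linarith
  exact hH.inv

theorem key_main (hQ : AlgQ) (hJ : AlgJ) (hV : ContDiff ℝ 2 V) (h : MM ψ V c C M) {F u : E n → ℝ}
    (hF : Test F) (hu : Test u) :
    I V (fun x => (hess V x * tau ψ x * hess F x * tau ψ x * hess F x * tau ψ x).trace)
      + I V (fun x => ∑ a, ∑ b, hess V x a b * fld ψ u a x * fld ψ u b x)
      ≤ I V (fun x => (Lop ψ u x) ^ 2)
        + 2 * I V (fun x => ∑ b, fld ψ (fun z => Lop ψ F z + F z + u z) b x * Lop ψ (pd b F) x) := by
  have hV1 : ContDiff ℝ 1 V := hV.of_le (by norm_num)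
  have hVc := hV1.continuous
  have hVpd : ∀ a, ContDiff ℝ 1 (pd a V) := FlatB.contDiff_pd hV
  have hVpdc : ∀ a, Continuous (pd a V) := fun a => (hVpd a).continuous
  set U : Fin n → Fin n → E n → ℝ := Uf ψ F with hU
  have hUlc : ∀ b d, LC (U b d) := lc_Uf h hF
  have hNt : ∀ a b, Test (fun x => hess F x a b) := test_hess hF
  have hNlc : ∀ a b, LC (fun x => hess F x a b) := fun a b => Test.lc (hNt a b)
  have hslc : ∀ b, LC (fld ψ u b) := lc_fld h hu
  have hLFlc : LC (fun z => Lop ψ F z + F z) := (lc_Lop h hF).add (Test.lc hF)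
  have hhlc : LC (fun z => Lop ψ F z + F z + u z) := hLFlc.add (Test.lc hu)
  have hLpd : ∀ b, LocallyLipschitz (Lop ψ (pd b F)) := fun b => ll_Lop h (cd_pd hF.1 b)
  have hDV : ∀ a d, Bd (Dd ψ d (pd a V)) := fun a d => bd_Dd h (ll_of_contDiff (hVpd a)) d
  -- names for the integrands
  let A1 : E n → ℝ := fun x => ∑ a, ∑ b, ∑ d, Dd ψ d (pd a V) x * U a b x * U b d x
  let B1 : E n → ℝ := fun x => ∑ a, ∑ b, ∑ d, (Dd ψ d (U a b) x * pd a (U b d) x
      + ∑ e, pd a (fun y => tau ψ y d e) x * pd e (U a b) x * U b d x)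
  let R1 : E n → ℝ := fun x => ∑ a, ∑ b, ∑ d,
      (x d * U b d x - Dd ψ d (U b d) x) * (pd a V x * U a b x - pd a (U a b) x)
  let R2 : E n → ℝ := fun x => ∑ a, ∑ b, ∑ d,
      (x d * U b d x - Dd ψ d (U b d) x) * (x a * hess F x a b - Dd ψ a (fun y => hess F y a b) x)
  let W : E n → ℝ := fun x => ∑ a, ∑ b, ∑ d, Dd ψ a (U b d) x * Dd ψ d (fun y => hess F y a b) x
  let TU : E n → ℝ := fun x => ∑ a, ∑ b, ∑ d, tau ψ x d a * U b d x * hess F x a b
  let RR : E n → ℝ := fun x => ∑ b, fld ψ (fun z => Lop ψ F z + F z) b x * Lop ψ (pd b F) x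
  let SL : E n → ℝ := fun x => ∑ b, fld ψ u b x * Lop ψ (pd b F) x
  let Hh : E n → ℝ := fun x => ∑ b, fld ψ (fun z => Lop ψ F z + F z + u z) b x * Lop ψ (pd b F) x
  let JU : E n → ℝ := fun x => ∑ a, ∑ b, pd a (fld ψ u b) x * U a b x
  let JJ : E n → ℝ := fun x => ∑ a, ∑ b, pd a (fld ψ u b) x * pd b (fld ψ u a) x
  let HS : E n → ℝ := fun x => ∑ a, ∑ b, hess V x a b * fld ψ u a x * fld ψ u b x
  -- class memberships
  have cTau : ∀ i j, Bd (fun x => tau ψ x i j) := fun i j => Bd.of_ll (ll_tau h i j)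
  have cA1' : ∀ a b d, CI (fun x => Dd ψ d (pd a V) x * U a b x * U b d x) := fun a b d =>
    CI.mul_left ((hDV a d).mul (Bd.of_ll (hUlc a b).1)) (CI.of_lc (hUlc b d))
  have cB1' : ∀ a b d, CI (fun x => Dd ψ d (U a b) x * pd a (U b d) x
      + ∑ e, pd a (fun y => tau ψ y d e) x * pd e (U a b) x * U b d x) := fun a b d =>
    (CI.mul_left (bd_Dd h (hUlc a b).1 d) (CI.pd (hUlc b d) a)).add
      (CI.sum _ fun e _ => CI.mul_left ((Bd.pd (ll_tau h d e) a).mul (Bd.pd (hUlc a b).1 e))
        (CI.of_lc (hUlc b d)))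
  have cDs : ∀ b d, CI (fun x => x d * U b d x - Dd ψ d (U b d) x) := fun b d =>
    (CI.of_lc (LC.mul_left (ll_coord d) (hUlc b d))).sub (ci_Dd h (hUlc b d) d)
  have cR1' : ∀ a b d, CI (fun x => (x d * U b d x - Dd ψ d (U b d) x) *
      (pd a V x * U a b x - pd a (U a b) x)) := fun a b d =>
    CI.mul_right (cDs b d) (((Bd.of_cont (hVpdc a)).mul (Bd.of_ll (hUlc a b).1)).sub
      (Bd.pd (hUlc a b).1 a))
  have cR2' : ∀ a b d, CI (fun x => (x d * U b d x - Dd ψ d (U b d) x) *
      (x a * hess F x a b - Dd ψ a (fun y => hess F y a b) x)) := fun a b d =>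
    CI.mul_right (cDs b d) (((Bd.of_ll (ll_coord a)).mul (Bd.of_ll (hNlc a b).1)).sub
      (bd_Dd h (hNlc a b).1 a))
  have cW' : ∀ a b d, CI (fun x => Dd ψ a (U b d) x * Dd ψ d (fun y => hess F y a b) x) := fun a b d =>
    CI.mul_left (bd_Dd h (hUlc b d).1 a) (ci_Dd h (hNlc a b) d)
  have cTU' : ∀ a b d, CI (fun x => tau ψ x d a * U b d x * hess F x a b) := fun a b d =>
    CI.mul_left ((cTau d a).mul (Bd.of_ll (hUlc b d).1)) (CI.of_lc (hNlc a b))
  have c3 : ∀ {f : Fin n → Fin n → Fin n → E n → ℝ}, (∀ a b d, CI (f a b d)) →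
      CI (fun x => ∑ a, ∑ b, ∑ d, f a b d x) := fun hf =>
    CI.sum _ fun a _ => CI.sum _ fun b _ => CI.sum _ fun d _ => hf a b d
  have i3 : ∀ {f : Fin n → Fin n → Fin n → E n → ℝ}, (∀ a b d, CI (f a b d)) →
      I V (fun x => ∑ a, ∑ b, ∑ d, f a b d x) = ∑ a, ∑ b, ∑ d, I V (f a b d) := fun {f} hf => by
    rw [I_sum _ hVc fun a _ => CI.sum _ fun b _ => CI.sum _ fun d _ => hf a b d]
    refine Finset.sum_congr rfl fun a _ => ?_
    rw [I_sum _ hVc fun b _ => CI.sum _ fun d _ => hf a b d]
    refine Finset.sum_congr rfl fun b _ => ?_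
    rw [I_sum _ hVc fun d _ => hf a b d]
  have cA1 : CI A1 := c3 cA1'
  have cB1 : CI B1 := c3 cB1'
  have cR1 : CI R1 := c3 cR1'
  have cR2 : CI R2 := c3 cR2'
  have cW : CI W := c3 cW'
  have cTU : CI TU := c3 cTU'
  have cRR : CI RR := CI.sum _ fun b _ => CI.mul_right (ci_fld h hLFlc b) (Bd.of_ll (hLpd b))
  have cSL : CI SL := CI.sum _ fun b _ => CI.mul_right (CI.of_lc (hslc b)) (Bd.of_ll (hLpd b))
  have cHh : CI Hh := CI.sum _ fun b _ => CI.mul_right (ci_fld h hhlc b) (Bd.of_ll (hLpd b))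
  have cJU : CI JU := CI.sum _ fun a _ => CI.sum _ fun b _ =>
    CI.mul_left (Bd.pd (hslc b).1 a) (CI.of_lc (hUlc a b))
  have cJJ : CI JJ := CI.sum _ fun a _ => CI.sum _ fun b _ =>
    CI.mul_left (Bd.pd (hslc b).1 a) (CI.pd (hslc a) b)
  have cHS : CI HS := CI.sum _ fun a _ => CI.sum _ fun b _ =>
    CI.mul_left ((Bd.of_cont (FlatB.continuous_hess hV a b)).mul (Bd.of_ll (hslc a).1))
      (CI.of_lc (hslc b))
  -- (1) from L1
  have s1 : I V A1 + I V B1 = I V R1 := by
    have e : I V (fun x => ∑ a, ∑ b, ∑ d, (Dd ψ d (pd a V) x * U a b x * U b d x + Dd ψ d (U a b) x * pd a (U b d) x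
      + (∑ e, pd a (fun y => tau ψ y d e) x * pd e (U a b) x * U b d x)
      - (x d * U b d x - Dd ψ d (U b d) x) * (pd a V x * U a b x - pd a (U a b) x))) = 0 := by
      rw [i3 fun a b d => ((cA1' a b d).add (cB1' a b d)).sub (cR1' a b d) |> fun hh => by
        simpa only [add_assoc] using hh]
      exact Finset.sum_eq_zero fun a _ => Finset.sum_eq_zero fun b _ => Finset.sum_eq_zero fun d _ =>
        L1 hV h (hUlc a b) (hUlc b d) a d
    have e' : I V (fun x => (A1 x + B1 x) - R1 x) = 0 := by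
      rw [← e]
      congr 1
      funext x
      simp only [A1, B1, R1, ← Finset.sum_add_distrib, ← Finset.sum_sub_distrib, add_assoc]
    rw [I_sub hVc (cA1.add cB1) cR1, I_add hVc cA1 cB1] at e'
    linarith
  -- (2) from L2
  have s2 : I V R2 = I V W + I V TU := by
    have e : I V (fun x => ∑ a, ∑ b, ∑ d, ((x d * U b d x - Dd ψ d (U b d) x) *
      (x a * hess F x a b - Dd ψ a (fun y => hess F y a b) x)
      - Dd ψ a (U b d) x * Dd ψ d (fun y => hess F y a b) x - tau ψ x d a * U b d x * hess F x a b)) = 0 := by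
      rw [i3 fun a b d => ((cR2' a b d).sub (cW' a b d)).sub (cTU' a b d)]
      exact Finset.sum_eq_zero fun a _ => Finset.sum_eq_zero fun b _ => Finset.sum_eq_zero fun d _ =>
        L2 hV h (hNt a b) (hUlc b d) a d
    have e' : I V (fun x => (R2 x - W x) - TU x) = 0 := by
      rw [← e]
      congr 1
      funext x
      simp only [R2, W, TU, ← Finset.sum_sub_distrib]
    rw [I_sub hVc (cR2.sub cW) cTU, I_sub hVc cR2 cW] at e'
    linarith
  -- pointwise identifications
  have p1 : I V R1 = I V RR := by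
    refine I_congr ?_
    filter_upwards [rad_good h] with x hx
    have e1 : R1 x = ∑ b, (∑ d, (x d * U b d x - Dd ψ d (U b d) x)) *
        (∑ a, (pd a V x * U a b x - pd a (U a b) x)) := by
      simp only [R1]
      rw [Finset.sum_comm]
      refine Finset.sum_congr rfl fun b _ => ?_
      rw [Finset.sum_mul_sum, Finset.sum_comm]
    rw [e1]
    refine Finset.sum_congr rfl fun b _ => ?_
    rw [ae_E3 h hx hF.1 b, ae_E2 h hx hF.1 b]
    ring
  have p2 : I V R2 = I V RR := by
    refine I_congr ?_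
    filter_upwards [rad_good h] with x hx
    have e1 : R2 x = ∑ b, (∑ d, (x d * U b d x - Dd ψ d (U b d) x)) *
        (∑ a, (x a * hess F x a b - Dd ψ a (fun y => hess F y a b) x)) := by
      simp only [R2]
      rw [Finset.sum_comm]
      refine Finset.sum_congr rfl fun b _ => ?_
      rw [Finset.sum_mul_sum, Finset.sum_comm]
    rw [e1]
    refine Finset.sum_congr rfl fun b _ => ?_
    rw [ae_E3 h hx hF.1 b, ae_E2' h b]
    ring
  have p3 : I V Hh = I V RR + I V SL := by
    rw [← I_add hVc cRR cSL]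
    refine I_congr ?_
    filter_upwards [hLFlc.ae_diff] with x hx
    have hux : DifferentiableAt ℝ u x := cd_diff hu.1 x
    simp only [Hh, RR, SL, ← Finset.sum_add_distrib]
    refine Finset.sum_congr rfl fun b _ => ?_
    rw [← add_mul]
    congr 1
    unfold fld
    rw [← Finset.sum_add_distrib]
    refine Finset.sum_congr rfl fun k _ => ?_
    rw [Vale.Agent.P227.M.rpd_add hx hux]
    ring
  -- (3) integration by parts
  have s3 : I V SL = - I V JU := by
    have hg : ∀ a b, LC (fun x => fld ψ u b x * U a b x) := fun a b => (hslc b).mul_right (hUlc a b).1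
    have cg : ∀ a b, CI (fun x => pd a (fun y => fld ψ u b y * U a b y) x
        - pd a V x * (fld ψ u b x * U a b x)) := fun a b =>
      (CI.pd (hg a b) a).sub (CI.mul_left (Bd.of_cont (hVpdc a)) (CI.of_lc (hg a b)))
    have e : I V (fun x => ∑ a, ∑ b, (pd a (fun y => fld ψ u b y * U a b y) x
        - pd a V x * (fld ψ u b x * U a b x))) = 0 := by
      rw [I_sum _ hVc fun a _ => CI.sum _ fun b _ => cg a b]
      refine Finset.sum_eq_zero fun a _ => ?_
      rw [I_sum _ hVc fun b _ => cg a b]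
      exact Finset.sum_eq_zero fun b _ => div1 hV1 (hg a b) a (Eventually.of_forall fun x => rfl)
    have e' : I V (fun x => SL x + JU x) = 0 := by
      rw [← e]
      refine I_congr ?_
      have hd : ∀ᵐ x, ∀ a b, DifferentiableAt ℝ (U a b) x := by
        rw [ae_all_iff]; intro a; rw [ae_all_iff]; intro b; exact (hUlc a b).ae_diff
      have hd2 : ∀ᵐ x, ∀ b, DifferentiableAt ℝ (fld ψ u b) x := by
        rw [ae_all_iff]; intro b; exact (hslc b).ae_diff
      filter_upwards [rad_good h, hd, hd2] with x hx hdx hd2x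
      have e1 : ∀ b, Lop ψ (pd b F) x = - ∑ a, (pd a V x * U a b x - pd a (U a b) x) := by
        intro b; rw [hU, ae_E2 h hx hF.1 b, neg_neg]
      have e2 : ∀ a b, pd a (fun y => fld ψ u b y * U a b y) x =
          pd a (fld ψ u b) x * U a b x + fld ψ u b x * pd a (U a b) x := fun a b =>
        Vale.Agent.P227.M.rpd_mul (hd2x b) (hdx a b)
      simp only [SL, JU, e1, e2]
      rw [Finset.sum_comm (f := fun a b => pd a (fld ψ u b) x * U a b x),
        Finset.sum_comm (f := fun a b => pd a (fld ψ u b) x * U a b x + fld ψ u b x * pd a (U a b) x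
          - pd a V x * (fld ψ u b x * U a b x)), ← Finset.sum_add_distrib]
      refine Finset.sum_congr rfl fun b _ => ?_
      rw [mul_neg, Finset.mul_sum, ← Finset.sum_neg_distrib, ← Finset.sum_add_distrib]
      exact Finset.sum_congr rfl fun a _ => by ring
    rw [I_add hVc cSL cJU] at e'
    linarith
  -- (4) positivity of B1 + W
  have s4 : 0 ≤ I V B1 + I V W := by
    rw [← I_add hVc cB1 cW]
    have h0 : I V (fun _ => (0 : ℝ)) = 0 := by unfold I; simp
    rw [← h0]
    have c0 : CI (fun _ : E n => (0 : ℝ)) := ⟨Bd.of_cont continuous_const, HasCompactSupport.zero⟩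
    refine I_mono hVc c0 (cB1.add cW) ?_
    filter_upwards [rad_good h] with x hx
    have key := hQ n (tau ψ x) (hess ψ x) (hess F x)
      (fun e => Matrix.of fun i j => pd e (fun y => tau ψ y i j) x)
      (fun e => Matrix.of fun i j => pd e (fun y => hess F y i j) x) (posDef_tau h x) (rad_tau_mul h x)
      (by ext i j; exact rad_hess_symm (cd_two hF.1) x j i)
      (by
        intro a; ext i j
        simp only [Matrix.transpose_apply, Matrix.of_apply]
        congr 1; funext y; exact rad_tau_symm h y j i)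
      (by intro a b d; simpa only [Matrix.of_apply] using rad_T h hx a b d)
      (by
        intro a b d
        simp only [Matrix.of_apply]
        exact FlatB.hess_symm (cd_two (cd_pd hF.1 d)) a b x)
      (by
        intro a; ext i j
        simp only [Matrix.transpose_apply, Matrix.of_apply]
        congr 1; funext y; exact rad_hess_symm (cd_two hF.1) y j i)
    refine key.trans (le_of_eq ?_)
    simp only [B1, W, ← Finset.sum_add_distrib]
    refine Finset.sum_congr rfl fun a _ => Finset.sum_congr rfl fun b _ => Finset.sum_congr rfl fun d _ => ?_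
    have hUe : ∀ i j, (tau ψ x * hess F x) i j = U i j x := fun i j => by
      simp only [Matrix.mul_apply, hU, Uf]
    simp only [← pd_Uf hx hF.1, hUe, Matrix.of_apply, Dd]
    ring
  -- (5) AlgJ
  have s5 : 2 * I V JU - I V TU ≤ I V JJ := by
    have e : I V (fun x => (JU x + JU x) - TU x) ≤ I V JJ := by
      refine I_mono hVc ((cJU.add cJU).sub cTU) cJJ ?_
      filter_upwards [rad_good h] with x hx
      have key := hJ n (tau ψ x) (hess F x) (Matrix.of fun a b => pd a (fld ψ u b) x) (posDef_tau h x)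
        (by ext i j; exact rad_hess_symm (cd_two hF.1) x j i)
        (by
          ext i j
          simp only [Matrix.transpose_apply, Matrix.mul_apply, Matrix.of_apply]
          exact ae_E7 h hx hu.1 j i)
      have hUe : ∀ i j, (tau ψ x * hess F x) i j = U i j x := fun i j => by
        simp only [Matrix.mul_apply, hU, Uf]
      simp only [hUe, Matrix.of_apply] at key
      simp only [JU, TU, JJ]
      linarith
    rw [I_sub hVc (cJU.add cJU) cTU, I_add hVc cJU cJU] at e
    linarith
  -- (6) Bochner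
  have s6 : I V (fun x => (Lop ψ u x) ^ 2) = I V HS + I V JJ := by
    have e := FlatB.flatB_sq hV (w := fun b => fld ψ u b) (fun b => (hslc b).lip) (fun b => (hslc b).2)
    rw [← I_add hVc cHS cJJ]
    have e1 : I V (fun x => (Lop ψ u x) ^ 2) =
        ∫ x, (∑ a, (pd a V x * fld ψ u a x - pd a (fld ψ u a) x)) ^ 2 * Real.exp (-V x) := by
      unfold I
      refine integral_congr_ae ?_
      filter_upwards [rad_good h] with x hx
      rw [ae_E5 h hx hu.1]; ring
    rw [e1, e]
    unfold I
    congr 1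
    funext x
    simp only [HS, JJ]
    congr 2
    rw [Finset.sum_comm]
  have sA : I V (fun x => (hess V x * tau ψ x * hess F x * tau ψ x * hess F x * tau ψ x).trace) = I V A1 := by
    congr 1
    funext x
    rw [← trace_A1 x F]
  rw [sA, s6]
  have t1 : I V (fun x => ∑ a, ∑ b, hess V x a b * fld ψ u a x * fld ψ u b x) = I V HS := rfl
  have t2 : I V (fun x => ∑ b, fld ψ (fun z => Lop ψ F z + F z + u z) b x * Lop ψ (pd b F) x) = I V Hh := rfl
  rw [t1, t2]
  linarith

theorem stmtKey_of (hQ : AlgQ) (hJ : AlgJ) : StmtKey := by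
  intro n ψ V c C M hN h F u hF hu
  have key := key_main hQ hJ (cd_two hN.smooth) h hF hu
  unfold Ex
  have hZ : 0 ≤ ∫ x, Real.exp (-V x) := integral_nonneg fun x => (Real.exp_pos _).le
  have := div_le_div_of_nonneg_right key hZ
  unfold I at this
  rw [add_div, add_div, mul_div_assoc] at this
  exact this

end Vale.Agent.P227.M.K814
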