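import Vale.Agent.P227.M.Defs

/-! # P227/M/ID/K: Lipschitz calculus in the x-chart -/

open MeasureTheory
open scoped Topology

namespace Vale.Agent.P227.M.K

variable {n : ℕ}

/-- Lipschitz on every ball -/
def LL (f : E n → ℝ) : Prop :=
  ∀ R : ℝ, ∃ K : ℝ, ∀ x y, ‖x‖ ≤ R → ‖y‖ ≤ R → |f x - f y| ≤ K * ‖x - y‖

/-- Lipschitz on balls, compactly supported -/
def LC (f : E n → ℝ) : Prop := LL f ∧ HasCompactSupport f

/-- weak commutation of partial derivatives -/
def StmtW : Prop := ∀ (n : ℕ) (P G : E n → ℝ) (a e : Fin n), LC P → LL G →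
  ∫ x, pd a P x * pd e G x = ∫ x, pd e P x * pd a G x

/-- regularity of `τ` and the pointwise (a.e.) consequences of the Monge-Ampere equation -/
def StmtTau : Prop := ∀ (n : ℕ) (ψ V : E n → ℝ) (c C M : ℝ), Nice V c C → MM ψ V c C M →
  (∀ i j, LL (fun x => hess ψ x i j)) ∧ (∀ i j, LL (fun x => tau ψ x i j)) ∧
  (∀ x, (tau ψ x).PosDef) ∧ (∀ x, (hess ψ x).PosDef) ∧
  (∀ᵐ x, (∀ i j, DifferentiableAt ℝ (fun y => hess ψ y i j) x) ∧
    (∀ i j, DifferentiableAt ℝ (fun y => tau ψ y i j) x) ∧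
    -- symmetry of the third derivatives
    (∀ i j k, pd i (fun y => hess ψ y j k) x = pd j (fun y => hess ψ y i k) x) ∧
    -- derivative of the inverse
    (∀ i j k, pd i (fun y => tau ψ y j k) x =
      - (tau ψ x * (Matrix.of fun p q => pd i (fun y => hess ψ y p q) x) * tau ψ x) j k) ∧
    -- divergence of `τ`
    (∀ b, ∑ a, pd a (fun y => tau ψ y a b) x = (∑ a, pd a V x * tau ψ x a b) - x b))

end Vale.Agent.P227.M.K
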