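import Vale.Agent.P227.M.Defs

/-! # P227/M/ID/K : locally Lipschitz functions with compact support, integration by parts -/

open MeasureTheory Filter Topology Set Metric
open scoped NNReal ENNReal ContDiff

namespace Vale.Agent.P227.M.K814

variable {n : ℕ}

/-! ## locally Lipschitz functions -/

theorem ll_of_contDiff {f : E n → ℝ} (hf : ContDiff ℝ 1 f) : LocallyLipschitz f :=
  hf.locallyLipschitz

theorem ll_mul {f g : E n → ℝ} (hf : LocallyLipschitz f) (hg : LocallyLipschitz g) :
    LocallyLipschitz (fun x => f x * g x) :=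
  (ContDiff.locallyLipschitz (𝕂 := ℝ) (f := fun p : ℝ × ℝ => p.1 * p.2) (by fun_prop)).comp
    (hf.prodMk hg)

theorem ll_add {f g : E n → ℝ} (hf : LocallyLipschitz f) (hg : LocallyLipschitz g) :
    LocallyLipschitz (fun x => f x + g x) :=
  (ContDiff.locallyLipschitz (𝕂 := ℝ) (f := fun p : ℝ × ℝ => p.1 + p.2) (by fun_prop)).comp
    (hf.prodMk hg)

theorem ll_sub {f g : E n → ℝ} (hf : LocallyLipschitz f) (hg : LocallyLipschitz g) :
    LocallyLipschitz (fun x => f x - g x) :=
  (ContDiff.locallyLipschitz (𝕂 := ℝ) (f := fun p : ℝ × ℝ => p.1 - p.2) (by fun_prop)).comp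
    (hf.prodMk hg)

theorem ll_const (c : ℝ) : LocallyLipschitz (fun _ : E n => c) := LocallyLipschitz.const c

theorem ll_sum {ι : Type*} (s : Finset ι) {f : ι → E n → ℝ} (hf : ∀ i ∈ s, LocallyLipschitz (f i)) :
    LocallyLipschitz (fun x => ∑ i ∈ s, f i x) := by
  classical
  induction s using Finset.induction_on with
  | empty => simpa using ll_const 0
  | insert a s ha ih =>
    simp only [Finset.sum_insert ha]
    exact ll_add (hf a (Finset.mem_insert_self _ _))
      (ih fun i hi => hf i (Finset.mem_insert_of_mem hi))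

theorem ll_coord (i : Fin n) : LocallyLipschitz (fun x : E n => x i) :=
  ll_of_contDiff (by fun_prop)

/-- locally Lipschitz + compact support -/
def LC (f : E n → ℝ) : Prop := LocallyLipschitz f ∧ HasCompactSupport f

theorem LC.mul_left {f g : E n → ℝ} (hf : LocallyLipschitz f) (hg : LC g) :
    LC (fun x => f x * g x) := ⟨ll_mul hf hg.1, hg.2.mul_left⟩

theorem LC.mul_right {f g : E n → ℝ} (hf : LC f) (hg : LocallyLipschitz g) :
    LC (fun x => f x * g x) := ⟨ll_mul hf.1 hg, hf.2.mul_right⟩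

theorem LC.add {f g : E n → ℝ} (hf : LC f) (hg : LC g) : LC (fun x => f x + g x) :=
  ⟨ll_add hf.1 hg.1, hf.2.add hg.2⟩

theorem LC.sub {f g : E n → ℝ} (hf : LC f) (hg : LC g) : LC (fun x => f x - g x) :=
  ⟨ll_sub hf.1 hg.1, HasCompactSupport.sub hf.2 hg.2⟩

theorem hcs_sum {ι : Type*} (s : Finset ι) {f : ι → E n → ℝ} (hf : ∀ i ∈ s, HasCompactSupport (f i)) :
    HasCompactSupport (fun x => ∑ i ∈ s, f i x) := by
  classical
  induction s using Finset.induction_on with
  | empty =>
    have : (fun x : E n => ∑ i ∈ (∅ : Finset ι), f i x) = 0 := by ext; simp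
    rw [this]; exact HasCompactSupport.zero
  | insert a s ha ih =>
    simp only [Finset.sum_insert ha]
    exact HasCompactSupport.add (hf a (Finset.mem_insert_self _ _))
      (ih fun i hi => hf i (Finset.mem_insert_of_mem hi))

theorem LC.sum {ι : Type*} (s : Finset ι) {f : ι → E n → ℝ} (hf : ∀ i ∈ s, LC (f i)) :
    LC (fun x => ∑ i ∈ s, f i x) :=
  ⟨ll_sum s fun i hi => (hf i hi).1, hcs_sum s fun i hi => (hf i hi).2⟩

theorem Test.lc {f : E n → ℝ} (hf : Test f) : LC f :=
  ⟨ll_of_contDiff (hf.1.of_le (by exact_mod_cast le_top)), hf.2⟩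

/-- a locally Lipschitz function is Lipschitz on closed balls -/
theorem ll_ball {f : E n → ℝ} (hf : LocallyLipschitz f) (R : ℝ) :
    ∃ K, LipschitzOnWith K f (closedBall 0 R) :=
  LocallyLipschitzOn.exists_lipschitzOnWith_of_compact (isCompact_closedBall 0 R)
    (hf.locallyLipschitzOn)

/-- a locally Lipschitz function with compact support is Lipschitz -/
theorem LC.lip {f : E n → ℝ} (hf : LC f) : ∃ C : ℝ≥0, LipschitzWith C f := by
  obtain ⟨R, hR⟩ := hf.2.isCompact.isBounded.subset_closedBall (0 : E n)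
  obtain ⟨K, hK⟩ := ll_ball hf.1 (R + 1)
  obtain ⟨M, hM⟩ := hf.2.exists_bound_of_continuous hf.1.continuous
  have hM0 : 0 ≤ M := (norm_nonneg _).trans (hM 0)
  have h0 : ∀ x, x ∉ closedBall (0 : E n) R → f x = 0 := fun x hx => by
    by_contra h
    exact hx (hR (subset_closure h))
  refine ⟨K + ⟨M, hM0⟩, LipschitzWith.of_dist_le_mul fun x y => ?_⟩
  have key : ∀ x y : E n, x ∈ closedBall (0 : E n) (R+1) → y ∉ closedBall (0 : E n) (R + 1) →
      dist (f x) (f y) ≤ M * dist x y := by
    intro x y _ hy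
    have hy0 : f y = 0 := h0 y fun h => hy (closedBall_subset_closedBall (by linarith) h)
    by_cases hx' : x ∈ closedBall (0 : E n) R
    · have h1 : 1 ≤ dist x y := by
        simp only [mem_closedBall, dist_zero_right, not_le] at hx' hy
        have := norm_sub_norm_le y x
        rw [dist_comm, dist_eq_norm]; linarith
      rw [hy0, Real.dist_eq, sub_zero]
      calc |f x| ≤ M := hM x
        _ ≤ M * dist x y := le_mul_of_one_le_right hM0 h1
    · rw [hy0, h0 x hx', dist_self]; positivity
  have hKc : (((K + ⟨M, hM0⟩ : ℝ≥0)) : ℝ) = K + M := rfl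
  rw [hKc]
  by_cases hx : x ∈ closedBall (0 : E n) (R + 1)
  · by_cases hy : y ∈ closedBall (0 : E n) (R + 1)
    · refine (hK.dist_le_mul x hx y hy).trans ?_
      have : 0 ≤ M * dist x y := by positivity
      nlinarith
    · refine (key x y hx hy).trans ?_
      have : 0 ≤ (K : ℝ) * dist x y := by positivity
      nlinarith
  · by_cases hy : y ∈ closedBall (0 : E n) (R + 1)
    · rw [dist_comm (f x), dist_comm x]
      refine (key y x hy hx).trans ?_
      have : 0 ≤ (K : ℝ) * dist y x := by positivity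
      nlinarith
    · rw [h0 x fun h => hx (closedBall_subset_closedBall (by linarith) h),
        h0 y fun h => hy (closedBall_subset_closedBall (by linarith) h), dist_self]
      positivity

theorem LC.ae_diff {f : E n → ℝ} (hf : LC f) : ∀ᵐ x, DifferentiableAt ℝ f x := by
  obtain ⟨C, hC⟩ := hf.lip
  exact hC.ae_differentiableAt

/-! ## locally bounded measurable functions -/

/-- measurable, locally bounded -/
def Bd (g : E n → ℝ) : Prop := Measurable g ∧ ∀ R : ℝ, ∃ C, ∀ x ∈ closedBall (0 : E n) R, |g x| ≤ C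

theorem Bd.of_cont {g : E n → ℝ} (hg : Continuous g) : Bd g := by
  refine ⟨hg.measurable, fun R => ?_⟩
  obtain ⟨C, hC⟩ := (isCompact_closedBall (0 : E n) R).exists_bound_of_continuousOn hg.continuousOn
  exact ⟨C, fun x hx => hC x hx⟩

theorem Bd.mul {f g : E n → ℝ} (hf : Bd f) (hg : Bd g) : Bd (fun x => f x * g x) := by
  refine ⟨hf.1.mul hg.1, fun R => ?_⟩
  obtain ⟨C, hC⟩ := hf.2 R
  obtain ⟨D, hD⟩ := hg.2 R
  refine ⟨|C| * |D|, fun x hx => ?_⟩
  rw [abs_mul]
  exact mul_le_mul ((hC x hx).trans (le_abs_self _)) ((hD x hx).trans (le_abs_self _))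
    (abs_nonneg _) (abs_nonneg _)

theorem Bd.add {f g : E n → ℝ} (hf : Bd f) (hg : Bd g) : Bd (fun x => f x + g x) := by
  refine ⟨hf.1.add hg.1, fun R => ?_⟩
  obtain ⟨C, hC⟩ := hf.2 R
  obtain ⟨D, hD⟩ := hg.2 R
  exact ⟨C + D, fun x hx => (abs_add_le _ _).trans (add_le_add (hC x hx) (hD x hx))⟩

theorem Bd.neg {f : E n → ℝ} (hf : Bd f) : Bd (fun x => - f x) := by
  refine ⟨hf.1.neg, fun R => ?_⟩
  obtain ⟨C, hC⟩ := hf.2 R
  exact ⟨C, fun x hx => by rw [abs_neg]; exact hC x hx⟩

theorem Bd.sub {f g : E n → ℝ} (hf : Bd f) (hg : Bd g) : Bd (fun x => f x - g x) := by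
  simpa [sub_eq_add_neg] using hf.add hg.neg

theorem Bd.sum {ι : Type*} (s : Finset ι) {f : ι → E n → ℝ} (hf : ∀ i ∈ s, Bd (f i)) :
    Bd (fun x => ∑ i ∈ s, f i x) := by
  classical
  induction s using Finset.induction_on with
  | empty => simpa using Bd.of_cont (n := n) (g := fun _ => (0 : ℝ)) continuous_const
  | insert a s ha ih =>
    simp only [Finset.sum_insert ha]
    exact Bd.add (hf a (Finset.mem_insert_self _ _))
      (ih fun i hi => hf i (Finset.mem_insert_of_mem hi))

theorem Bd.of_ll {g : E n → ℝ} (hg : LocallyLipschitz g) : Bd g := Bd.of_cont hg.continuous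

theorem ei_norm (i : Fin n) : ‖(ei i : E n)‖ = 1 := by
  simp [ei]

theorem Bd.pd {g : E n → ℝ} (hg : LocallyLipschitz g) (i : Fin n) : Bd (pd i g) := by
  refine ⟨measurable_fderiv_apply_const ℝ g _, fun R => ?_⟩
  obtain ⟨K, hK⟩ := ll_ball hg (R + 1)
  refine ⟨K, fun x hx => ?_⟩
  have hx' : closedBall (0 : E n) (R + 1) ∈ 𝓝 x := by
    have : x ∈ ball (0 : E n) (R + 1) := by
      simp only [mem_closedBall, dist_zero_right] at hx
      simp only [mem_ball, dist_zero_right]; linarith
    exact mem_of_superset (isOpen_ball.mem_nhds this) ball_subset_closedBall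
  have h1 : ‖fderiv ℝ g x‖ ≤ K := norm_fderiv_le_of_lipschitzOn ℝ hx' hK
  have h2 := (fderiv ℝ g x).le_opNorm (ei i)
  rw [ei_norm, mul_one] at h2
  exact h2.trans h1

theorem hcs_pd {g : E n → ℝ} (hg : HasCompactSupport g) (i : Fin n) : HasCompactSupport (pd i g) := by
  have := (hg.fderiv (𝕜 := ℝ))
  exact this.comp_left (g := fun L : E n →L[ℝ] ℝ => L (ei i)) (by simp)

/-! ## the integral against `exp (-V)` -/

/-- measurable, locally bounded, compact support -/
def CI (g : E n → ℝ) : Prop := Bd g ∧ HasCompactSupport g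

theorem CI.add {f g : E n → ℝ} (hf : CI f) (hg : CI g) : CI (fun x => f x + g x) :=
  ⟨hf.1.add hg.1, hf.2.add hg.2⟩
theorem CI.sub {f g : E n → ℝ} (hf : CI f) (hg : CI g) : CI (fun x => f x - g x) :=
  ⟨hf.1.sub hg.1, HasCompactSupport.sub hf.2 hg.2⟩
theorem CI.mul_left {f g : E n → ℝ} (hf : Bd f) (hg : CI g) : CI (fun x => f x * g x) :=
  ⟨hf.mul hg.1, hg.2.mul_left⟩
theorem CI.mul_right {f g : E n → ℝ} (hf : CI f) (hg : Bd g) : CI (fun x => f x * g x) :=
  ⟨hf.1.mul hg, hf.2.mul_right⟩
theorem CI.sum {ι : Type*} (s : Finset ι) {f : ι → E n → ℝ} (hf : ∀ i ∈ s, CI (f i)) :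
    CI (fun x => ∑ i ∈ s, f i x) :=
  ⟨Bd.sum s fun i hi => (hf i hi).1, hcs_sum s fun i hi => (hf i hi).2⟩
theorem CI.of_lc {f : E n → ℝ} (hf : LC f) : CI f := ⟨Bd.of_ll hf.1, hf.2⟩
theorem CI.pd {f : E n → ℝ} (hf : LC f) (i : Fin n) : CI (pd i f) := ⟨Bd.pd hf.1 i, hcs_pd hf.2 i⟩

theorem CI.integrable {V g : E n → ℝ} (hV : Continuous V) (hg : CI g) :
    Integrable (fun x => g x * Real.exp (-V x)) := by
  obtain ⟨R, hR⟩ := hg.2.isCompact.isBounded.subset_closedBall (0 : E n)
  obtain ⟨C, hC⟩ := hg.1.2 R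
  obtain ⟨D, hD⟩ := (isCompact_closedBall (0 : E n) R).exists_bound_of_continuousOn
    (f := fun x => Real.exp (-V x)) (by fun_prop)
  have h0 : ∀ x, x ∉ closedBall (0 : E n) R → g x = 0 := fun x hx => by
    by_contra h
    exact hx (hR (subset_closure h))
  have hm : AEStronglyMeasurable (fun x => g x * Real.exp (-V x)) volume :=
    (hg.1.1.mul (by fun_prop)).aestronglyMeasurable
  have : Integrable ((closedBall (0 : E n) R).indicator fun _ => |C| * |D|) :=
    (integrable_indicator_iff measurableSet_closedBall).2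
      (integrableOn_const (measure_closedBall_lt_top).ne)
  refine this.mono' hm (Eventually.of_forall fun x => ?_)
  by_cases hx : x ∈ closedBall (0 : E n) R
  · rw [indicator_of_mem hx, norm_mul]
    exact mul_le_mul ((hC x hx).trans (le_abs_self _)) ((hD x hx).trans (le_abs_self _))
      (norm_nonneg _) (abs_nonneg _)
  · rw [indicator_of_notMem hx, h0 x hx]; simp

/-- the integral `∫ g e^{-V}` -/
noncomputable def I (V g : E n → ℝ) : ℝ := ∫ x, g x * Real.exp (-V x)

theorem I_add {V f g : E n → ℝ} (hV : Continuous V) (hf : CI f) (hg : CI g) :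
    I V (fun x => f x + g x) = I V f + I V g := by
  unfold I
  rw [← integral_add (hf.integrable hV) (hg.integrable hV)]
  congr 1; ext x; ring

theorem I_sub {V f g : E n → ℝ} (hV : Continuous V) (hf : CI f) (hg : CI g) :
    I V (fun x => f x - g x) = I V f - I V g := by
  unfold I
  rw [← integral_sub (hf.integrable hV) (hg.integrable hV)]
  congr 1; ext x; ring

theorem I_sum {ι : Type*} (s : Finset ι) {V : E n → ℝ} {f : ι → E n → ℝ} (hV : Continuous V)
    (hf : ∀ i ∈ s, CI (f i)) : I V (fun x => ∑ i ∈ s, f i x) = ∑ i ∈ s, I V (f i) := by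
  unfold I
  rw [← integral_finsetSum s fun i hi => (hf i hi).integrable hV]
  congr 1; ext x; rw [Finset.sum_mul]

theorem I_congr {V f g : E n → ℝ} (h : ∀ᵐ x, f x = g x) : I V f = I V g :=
  integral_congr_ae (h.mono fun x hx => by simp only [hx])

theorem I_mono {V f g : E n → ℝ} (hV : Continuous V) (hf : CI f) (hg : CI g)
    (h : ∀ᵐ x, f x ≤ g x) : I V f ≤ I V g :=
  integral_mono_ae (hf.integrable hV) (hg.integrable hV)
    (h.mono fun _ hx => mul_le_mul_of_nonneg_right hx (Real.exp_pos _).le)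

/-- integration by parts against `exp (-V)` for a locally Lipschitz compactly supported function -/
theorem ibp {V f : E n → ℝ} (hV : ContDiff ℝ 1 V) (hf : LC f) (a : Fin n) :
    I V (pd a f) = I V (fun x => pd a V x * f x) := by
  obtain ⟨C, hC⟩ := hf.lip
  -- a smooth cutoff
  obtain ⟨R, hR⟩ := hf.2.isCompact.isBounded.subset_closedBall (0 : E n)
  set R' : ℝ := max R 0 with hR'
  have hR'0 : 0 ≤ R' := le_max_right _ _
  let χ : ContDiffBump (0 : E n) := ⟨R' + 1, R' + 2, by linarith, by linarith⟩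
  have hχ1 : ∀ x ∈ ball (0 : E n) (R' + 1), χ x = 1 := fun x hx =>
    χ.one_of_mem_closedBall (ball_subset_closedBall hx)
  have hχc : HasCompactSupport (χ : E n → ℝ) := χ.hasCompactSupport
  have hχs : ContDiff ℝ 1 (χ : E n → ℝ) := χ.contDiff
  let g : E n → ℝ := fun x => Real.exp (-V x) * χ x
  have hg1 : ContDiff ℝ 1 g := by
    have : ContDiff ℝ 1 (fun x => Real.exp (-V x)) := by fun_prop
    exact this.mul hχs
  have hgc : HasCompactSupport g := hχc.mul_left
  have hgLC : LC g := ⟨ll_of_contDiff hg1, hgc⟩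
  obtain ⟨D, hD⟩ := hgLC.lip
  have key := LipschitzWith.integral_lineDeriv_mul_eq (μ := (volume : Measure (E n))) hD hC hf.2 (ei a)
  have hsupp : ∀ x, x ∈ tsupport f → x ∈ ball (0 : E n) (R' + 1) := fun x hx => by
    have := hR hx
    simp only [mem_closedBall, dist_zero_right] at this
    simp only [mem_ball, dist_zero_right]
    have := le_max_left R 0
    linarith
  have hgline : ∀ x ∈ tsupport f, lineDeriv ℝ g x (ei a) = - pd a V x * Real.exp (-V x) := by
    intro x hx
    have hev : g =ᶠ[𝓝 x] fun x => Real.exp (-V x) := by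
      filter_upwards [isOpen_ball.mem_nhds (hsupp x hx)] with y hy
      simp only [g, hχ1 y hy, mul_one]
    have hVd : DifferentiableAt ℝ V x := (hV.differentiable (by simp)).differentiableAt
    have h1 : HasFDerivAt (fun x => Real.exp (-V x)) (Real.exp (-V x) • (-(fderiv ℝ V x))) x :=
      (hVd.hasFDerivAt.neg).exp
    have h2 : HasFDerivAt g (Real.exp (-V x) • (-(fderiv ℝ V x))) x := h1.congr_of_eventuallyEq hev
    rw [(h2.hasLineDerivAt (ei a)).lineDeriv]
    simp only [smul_apply, neg_apply, smul_eq_mul, pd]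
    ring
  have hL : ∫ x, lineDeriv ℝ g x (ei a) * f x = - I V (fun x => pd a V x * f x) := by
    unfold I
    rw [← integral_neg]
    refine integral_congr_ae (Eventually.of_forall fun x => ?_)
    by_cases hx : x ∈ tsupport f
    · simp only [hgline x hx]; ring
    · simp only [image_eq_zero_of_notMem_tsupport hx]; ring
  have hRr : ∫ x, lineDeriv ℝ f x (-(ei a)) * g x = - I V (pd a f) := by
    unfold I
    rw [← integral_neg]
    refine integral_congr_ae ?_
    filter_upwards [hC.ae_differentiableAt] with x hx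
    rw [(hx.hasFDerivAt.hasLineDerivAt (-(ei a))).lineDeriv, map_neg]
    by_cases hxt : x ∈ tsupport f
    · simp only [g, hχ1 x (hsupp x hxt), pd]; ring
    · have : fderiv ℝ f x = 0 := by
        have := (support_fderiv_subset ℝ (f := f))
        by_contra h
        exact hxt (this h)
      simp only [this, pd]; simp
  rw [hL, hRr] at key
  linarith

end Vale.Agent.P227.M.K814
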