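import Vale.Agent.P227.M.ID.K.Lip
import Vale.Agent.P227.M.ID.Rad
import Vale.Agent.P227.M.ID.FlatB
import Vale.Agent.P227.M.Tool.Swap

/-! # P227/M/ID/K : the two commutation lemmas -/

open MeasureTheory Filter Topology Set Metric
open scoped NNReal ENNReal ContDiff

namespace Vale.Agent.P227.M.K814

variable {n : ℕ} {ψ V : E n → ℝ} {c C M : ℝ}

/-- `D_a f = ∑ τ_ab ∂_b f` -/
noncomputable def Dd (ψ : E n → ℝ) (a : Fin n) (f : E n → ℝ) (x : E n) : ℝ :=
  ∑ b, tau ψ x a b * pd b f x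

theorem ll_tau (h : MM ψ V c C M) (a b : Fin n) : LocallyLipschitz (fun x => tau ψ x a b) :=
  (rad_lipw fun x y => rad_tau_lip h x y a b).locallyLipschitz

theorem bd_Dd (h : MM ψ V c C M) {f : E n → ℝ} (hf : LocallyLipschitz f) (a : Fin n) :
    Bd (Dd ψ a f) :=
  Bd.sum _ fun b _ => (Bd.of_ll (ll_tau h a b)).mul (Bd.pd hf b)

theorem ci_Dd (h : MM ψ V c C M) {f : E n → ℝ} (hf : LC f) (a : Fin n) : CI (Dd ψ a f) :=
  CI.sum _ fun b _ => CI.mul_left (Bd.of_ll (ll_tau h a b)) (CI.pd hf b)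

/-- integral of a divergence, one direction -/
theorem div1 (hV : ContDiff ℝ 1 V) {g G : E n → ℝ} (hg : LC g) (a : Fin n)
    (hG : ∀ᵐ x, G x = pd a g x - pd a V x * g x) : I V G = 0 := by
  have hVa : Continuous (pd a V) := FlatB.continuous_pd hV a
  rw [I_congr hG, I_sub hV.continuous (CI.pd hg a) (CI.mul_left (Bd.of_cont hVa) (CI.of_lc hg)),
    ibp hV hg a, sub_self]

/-- integral of a divergence -/
theorem divsum (hV : ContDiff ℝ 1 V) {g : Fin n → E n → ℝ} {G : E n → ℝ} (hg : ∀ b, LC (g b))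
    (hG : ∀ᵐ x, G x = ∑ b, (pd b (g b) x - pd b V x * g b x)) : I V G = 0 := by
  have hVa : ∀ a, Continuous (pd a V) := FlatB.continuous_pd hV
  rw [I_congr hG, I_sum _ hV.continuous fun b _ =>
    (CI.pd (hg b) b).sub (CI.mul_left (Bd.of_cont (hVa b)) (CI.of_lc (hg b)))]
  exact Finset.sum_eq_zero fun b _ => div1 hV (hg b) b (Eventually.of_forall fun x => rfl)

/-- `E D_a f = E x_a f` -/
theorem core (hV : ContDiff ℝ 1 V) (h : MM ψ V c C M) {f G : E n → ℝ} (hf : LC f) (a : Fin n)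
    (hG : ∀ᵐ x, G x = Dd ψ a f x - x a * f x) : I V G = 0 := by
  refine divsum hV (g := fun b x => tau ψ x a b * f x) (fun b => LC.mul_left (ll_tau h a b) hf) ?_
  filter_upwards [hG, hf.ae_diff, rad_good h] with x hx hfx hgx
  rw [hx]
  have hd := rad_div h hgx a
  have e1 : ∀ b, pd b (fun y => tau ψ y a b * f y) x =
      pd b (fun y => tau ψ y b a) x * f x + tau ψ x a b * pd b f x := by
    intro b
    rw [Vale.Agent.P227.M.rpd_mul (hgx.2 a b) hfx]
    have : (fun y => tau ψ y a b) = fun y => tau ψ y b a := by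
      funext y; exact rad_tau_symm h y a b
    rw [this]
  simp only [e1]
  have e2 : ∀ b, pd b (fun y => tau ψ y b a) x * f x + tau ψ x a b * pd b f x -
      pd b V x * (tau ψ x a b * f x) = tau ψ x a b * pd b f x +
      (pd b (fun y => tau ψ y b a) x - tau ψ x b a * pd b V x) * f x := by
    intro b; rw [rad_tau_symm h x a b]; ring
  simp only [e2]
  rw [Finset.sum_add_distrib, ← Finset.sum_mul, hd]
  unfold Dd
  ring

/-- `∫ ∂_a P (∂_e Q - V_e Q) e^{-V} = ∫ ∂_e P (∂_a Q - V_a Q) e^{-V}` -/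
theorem swapI (hV : ContDiff ℝ 1 V) {P Q : E n → ℝ} (hP : LC P) (hQ : LC Q) (a e : Fin n) :
    I V (fun x => pd a P x * (pd e Q x - pd e V x * Q x)) =
      I V (fun x => pd e P x * (pd a Q x - pd a V x * Q x)) := by
  obtain ⟨K, hK⟩ := hP.lip
  have hE : LocallyLipschitz (fun x => Real.exp (-V x)) := ll_of_contDiff (by fun_prop)
  have hΦ : LC (fun x => Q x * Real.exp (-V x)) := hQ.mul_right hE
  obtain ⟨K', hK'⟩ := hΦ.lip
  have key := Tool.swap_fderiv (μ := (volume : Measure (E n))) hK hK' hΦ.2 (ei a) (ei e)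
  have hVd : ∀ x, DifferentiableAt ℝ V x := fun x => (hV.differentiable (by simp)).differentiableAt
  have hpd : ∀ (i : Fin n) (x : E n), DifferentiableAt ℝ Q x →
      fderiv ℝ (fun x => Q x * Real.exp (-V x)) x (ei i) =
        (pd i Q x - pd i V x * Q x) * Real.exp (-V x) := by
    intro i x hQx
    have h1 : HasFDerivAt (fun x => Real.exp (-V x)) (Real.exp (-V x) • (-(fderiv ℝ V x))) x :=
      ((hVd x).hasFDerivAt.neg).exp
    rw [(hQx.hasFDerivAt.fun_mul h1).fderiv]
    simp only [pd, add_apply, smul_apply, neg_apply, smul_eq_mul]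
    ring
  have e1 : ∀ i j : Fin n, ∫ x, fderiv ℝ P x (ei i) * fderiv ℝ (fun x => Q x * Real.exp (-V x)) x (ei j) =
      I V (fun x => pd i P x * (pd j Q x - pd j V x * Q x)) := by
    intro i j
    unfold I
    refine integral_congr_ae ?_
    filter_upwards [hQ.ae_diff] with x hx
    rw [hpd j x hx]
    simp only [pd]; ring
  rw [← e1 a e, ← e1 e a]
  exact key

/-- commutation lemma 1 -/
theorem L1 (hV : ContDiff ℝ 2 V) (h : MM ψ V c C M) {P Q : E n → ℝ} (hP : LC P) (hQ : LC Q)
    (a d : Fin n) :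
    I V (fun x => Dd ψ d (pd a V) x * P x * Q x + Dd ψ d P x * pd a Q x
      + (∑ e, pd a (fun y => tau ψ y d e) x * pd e P x * Q x)
      - (x d * Q x - Dd ψ d Q x) * (pd a V x * P x - pd a P x)) = 0 := by
  have hV1 : ContDiff ℝ 1 V := hV.of_le (by norm_num)
  have hVa : ContDiff ℝ 1 (pd a V) := FlatB.contDiff_pd hV a
  have hVll : LocallyLipschitz (pd a V) := ll_of_contDiff hVa
  have hVc := hV1.continuous
  -- the divergence part
  have hg : LC (fun x => pd a V x * (P x * Q x)) := LC.mul_left hVll (hP.mul_right hQ.1)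
  have hA : I V (fun x => Dd ψ d (fun y => pd a V y * (P y * Q y)) x - x d * (pd a V x * (P x * Q x))) = 0 :=
    core hV1 h hg d (Eventually.of_forall fun x => rfl)
  -- the swap part
  have hQe : ∀ e, LC (fun x => tau ψ x d e * Q x) := fun e => LC.mul_left (ll_tau h d e) hQ
  have hVcont : ∀ e, Continuous (pd e V) := FlatB.continuous_pd hV1
  have hCI : ∀ e i j, CI (fun x => pd i P x * (pd j (fun y => tau ψ y d e * Q y) x
      - pd j V x * (tau ψ x d e * Q x))) := fun e i j =>
    CI.mul_left (Bd.pd hP.1 i) ((CI.pd (hQe e) j).sub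
      (CI.mul_left (Bd.of_cont (hVcont j)) (CI.of_lc (hQe e))))
  have hB : I V (fun x => ∑ e, (pd e P x * (pd a (fun y => tau ψ y d e * Q y) x
      - pd a V x * (tau ψ x d e * Q x)) - pd a P x * (pd e (fun y => tau ψ y d e * Q y) x
      - pd e V x * (tau ψ x d e * Q x)))) = 0 := by
    rw [I_sum _ hVc fun e _ => (hCI e e a).sub (hCI e a e)]
    refine Finset.sum_eq_zero fun e _ => ?_
    rw [I_sub hVc (hCI e e a) (hCI e a e), swapI hV1 hP (hQe e) a e, sub_self]
  have hAB : I V (fun x => (Dd ψ d (fun y => pd a V y * (P y * Q y)) x - x d * (pd a V x * (P x * Q x)))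
      + ∑ e, (pd e P x * (pd a (fun y => tau ψ y d e * Q y) x
      - pd a V x * (tau ψ x d e * Q x)) - pd a P x * (pd e (fun y => tau ψ y d e * Q y) x
      - pd e V x * (tau ψ x d e * Q x)))) = 0 := by
    rw [I_add hVc ((ci_Dd h hg d).sub (CI.of_lc (LC.mul_left (ll_coord d) hg)))
      (CI.sum _ fun e _ => (hCI e e a).sub (hCI e a e)), hA, hB, add_zero]
  rw [← hAB]
  refine I_congr ?_
  filter_upwards [hP.ae_diff, hQ.ae_diff, rad_good h] with x hPx hQx hgx
  have hVx : DifferentiableAt ℝ (pd a V) x := (hVa.differentiable (by simp)).differentiableAt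
  have hdiv := rad_div h hgx d
  have e1 : ∀ e i, pd i (fun y => tau ψ y d e * Q y) x =
      pd i (fun y => tau ψ y d e) x * Q x + tau ψ x d e * pd i Q x := fun e i =>
    Vale.Agent.P227.M.rpd_mul (hgx.2 d e) hQx
  have e2 : ∀ i, pd i (fun y => pd a V y * (P y * Q y)) x =
      pd i (pd a V) x * (P x * Q x) + pd a V x * (pd i P x * Q x + P x * pd i Q x) := fun i => by
    rw [Vale.Agent.P227.M.rpd_mul hVx (hPx.fun_mul hQx), Vale.Agent.P227.M.rpd_mul hPx hQx]
  have e3 : ∑ e, (pd e (fun y => tau ψ y d e) x - tau ψ x d e * pd e V x) = - x d := by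
    rw [← hdiv]
    refine Finset.sum_congr rfl fun e _ => ?_
    have : (fun y => tau ψ y d e) = fun y => tau ψ y e d := by
      funext y; exact rad_tau_symm h y d e
    rw [this, rad_tau_symm h x d e]
  have e4 : ∑ e, (pd e P x * (pd a (fun y => tau ψ y d e * Q y) x
      - pd a V x * (tau ψ x d e * Q x)) - pd a P x * (pd e (fun y => tau ψ y d e * Q y) x
      - pd e V x * (tau ψ x d e * Q x))) =
      (∑ e, pd a (fun y => tau ψ y d e) x * pd e P x * Q x) + Dd ψ d P x * pd a Q x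
      - pd a V x * Q x * Dd ψ d P x - pd a P x * Dd ψ d Q x
      - pd a P x * Q x * (∑ e, (pd e (fun y => tau ψ y d e) x - tau ψ x d e * pd e V x)) := by
    unfold Dd
    simp only [e1, Finset.mul_sum, Finset.sum_mul, ← Finset.sum_add_distrib, ← Finset.sum_sub_distrib]
    exact Finset.sum_congr rfl fun e _ => by ring
  rw [e4, e3]
  have e5 : Dd ψ d (fun y => pd a V y * (P y * Q y)) x =
      Dd ψ d (pd a V) x * (P x * Q x) + pd a V x * (Dd ψ d P x * Q x + P x * Dd ψ d Q x) := by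
    unfold Dd
    simp only [e2, Finset.mul_sum, Finset.sum_mul, ← Finset.sum_add_distrib]
    exact Finset.sum_congr rfl fun e _ => by ring
  rw [e5]
  ring

/-- commutation lemma 2 -/
theorem L2 (hV : ContDiff ℝ 2 V) (h : MM ψ V c C M) {P Q : E n → ℝ} (hP : Test P) (hQ : LC Q)
    (a d : Fin n) :
    I V (fun x => (x d * Q x - Dd ψ d Q x) * (x a * P x - Dd ψ a P x)
      - Dd ψ a Q x * Dd ψ d P x - tau ψ x d a * Q x * P x) = 0 := by
  have hV1 : ContDiff ℝ 1 V := hV.of_le (by norm_num)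
  have hVc := hV1.continuous
  have hP2 : ContDiff ℝ 2 P := by exact_mod_cast contDiff_infty.1 hP.1 2
  have hPb : ∀ b, ContDiff ℝ 1 (pd b P) := FlatB.contDiff_pd hP2
  have hPlc : LC P := Test.lc hP
  have hDP : ∀ i, LC (Dd ψ i P) := fun i =>
    LC.sum _ fun b _ => LC.mul_left (ll_tau h i b) ⟨ll_of_contDiff (hPb b), hcs_pd hP.2 b⟩
  have hR : LC (fun x => x a * P x - Dd ψ a P x) := (LC.mul_left (ll_coord a) hPlc).sub (hDP a)
  have hg1 : LC (fun x => Q x * (x a * P x - Dd ψ a P x)) := hQ.mul_right hR.1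
  have hg2 : LC (fun x => Q x * Dd ψ d P x) := hQ.mul_right (hDP d).1
  have hA : I V (fun x => Dd ψ d (fun y => Q y * (y a * P y - Dd ψ a P y)) x
      - x d * (Q x * (x a * P x - Dd ψ a P x))) = 0 :=
    core hV1 h hg1 d (Eventually.of_forall fun x => rfl)
  have hB : I V (fun x => Dd ψ a (fun y => Q y * Dd ψ d P y) x - x a * (Q x * Dd ψ d P x)) = 0 :=
    core hV1 h hg2 a (Eventually.of_forall fun x => rfl)
  have hCA : CI (fun x => Dd ψ d (fun y => Q y * (y a * P y - Dd ψ a P y)) x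
      - x d * (Q x * (x a * P x - Dd ψ a P x))) :=
    (ci_Dd h hg1 d).sub (CI.of_lc (LC.mul_left (ll_coord d) hg1))
  have hCB : CI (fun x => Dd ψ a (fun y => Q y * Dd ψ d P y) x - x a * (Q x * Dd ψ d P x)) :=
    (ci_Dd h hg2 a).sub (CI.of_lc (LC.mul_left (ll_coord a) hg2))
  have hAB : I V (fun x => (Dd ψ d (fun y => Q y * (y a * P y - Dd ψ a P y)) x
      - x d * (Q x * (x a * P x - Dd ψ a P x))) +
      (Dd ψ a (fun y => Q y * Dd ψ d P y) x - x a * (Q x * Dd ψ d P x))) = 0 := by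
    rw [I_add hVc hCA hCB, hA, hB, add_zero]
  have hneg : I V (fun x => -((x d * Q x - Dd ψ d Q x) * (x a * P x - Dd ψ a P x)
      - Dd ψ a Q x * Dd ψ d P x - tau ψ x d a * Q x * P x)) = 0 := by
    rw [← hAB]
    refine I_congr ?_
    filter_upwards [hQ.ae_diff, rad_good h] with x hQx hgx
    have hPx : DifferentiableAt ℝ P x := (hP2.differentiable (by norm_num)).differentiableAt
    have hPbx : ∀ b, DifferentiableAt ℝ (pd b P) x := fun b =>
      ((hPb b).differentiable (by norm_num)).differentiableAt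
    have hDPx : ∀ i, DifferentiableAt ℝ (Dd ψ i P) x := fun i => by
      unfold Dd
      exact DifferentiableAt.fun_sum fun b _ => (hgx.2 i b).fun_mul (hPbx b)
    have e0 : ∀ i j, pd j (Dd ψ i P) x =
        ∑ b, (pd j (fun y => tau ψ y i b) x * pd b P x + tau ψ x i b * pd j (pd b P) x) := by
      intro i j
      unfold Dd
      rw [Vale.Agent.P227.M.rpd_sum fun b _ => (hgx.2 i b).fun_mul (hPbx b)]
      exact Finset.sum_congr rfl fun b _ => Vale.Agent.P227.M.rpd_mul (hgx.2 i b) (hPbx b)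
    have comm : ∀ i j, Dd ψ i (Dd ψ j P) x = (∑ b, (∑ e, tau ψ x i e * pd e (fun y => tau ψ y j b) x) * pd b P x)
        + ∑ e, ∑ b, tau ψ x i e * tau ψ x j b * pd e (pd b P) x := by
      intro i j
      have : Dd ψ i (Dd ψ j P) x = ∑ e, tau ψ x i e * pd e (Dd ψ j P) x := rfl
      rw [this]
      simp only [e0, Finset.mul_sum, Finset.sum_mul]
      rw [Finset.sum_comm (f := fun b e => tau ψ x i e * pd e (fun y => tau ψ y j b) x * pd b P x),
        ← Finset.sum_add_distrib]
      refine Finset.sum_congr rfl fun e _ => ?_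
      rw [← Finset.sum_add_distrib]
      exact Finset.sum_congr rfl fun b _ => by ring
    have hcomm : Dd ψ d (Dd ψ a P) x = Dd ψ a (Dd ψ d P) x := by
      rw [comm, comm]
      congr 1
      · refine Finset.sum_congr rfl fun b _ => ?_
        rw [rad_T h hgx d a b]
      · rw [Finset.sum_comm]
        refine Finset.sum_congr rfl fun b _ => Finset.sum_congr rfl fun e _ => ?_
        rw [FlatB.hess_symm hP2 e b x]; ring
    have hxa : DifferentiableAt ℝ (fun y : E n => y a) x := rad_diff_coord a x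
    have e1 : Dd ψ d (fun y => Q y * (y a * P y - Dd ψ a P y)) x =
        Dd ψ d Q x * (x a * P x - Dd ψ a P x) + Q x * (tau ψ x d a * P x + x a * Dd ψ d P x
          - Dd ψ d (Dd ψ a P) x) := by
      have e2 : ∀ i, pd i (fun y => Q y * (y a * P y - Dd ψ a P y)) x =
          pd i Q x * (x a * P x - Dd ψ a P x) + Q x * (((if a = i then 1 else 0) * P x + x a * pd i P x)
            - pd i (Dd ψ a P) x) := by
        intro i
        rw [Vale.Agent.P227.M.rpd_mul hQx ((hxa.fun_mul hPx).fun_sub (hDPx a)),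
          Vale.Agent.P227.M.rpd_sub (hxa.fun_mul hPx) (hDPx a), Vale.Agent.P227.M.rpd_mul hxa hPx,
          Vale.Agent.P227.M.rpd_coord]
      have e3 : tau ψ x d a = ∑ b, tau ψ x d b * (if a = b then 1 else 0) := by simp
      have e4 : Dd ψ d (fun y => Q y * (y a * P y - Dd ψ a P y)) x =
        ∑ b, tau ψ x d b * pd b (fun y => Q y * (y a * P y - Dd ψ a P y)) x := rfl
      have e5 : Dd ψ d (Dd ψ a P) x = ∑ b, tau ψ x d b * pd b (Dd ψ a P) x := rfl
      have e6 : Dd ψ d P x = ∑ b, tau ψ x d b * pd b P x := rfl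
      have e7 : Dd ψ d Q x = ∑ b, tau ψ x d b * pd b Q x := rfl
      rw [e4, e5, e6, e7, e3]
      simp only [e2]
      generalize (x.ofLp a * P x - Dd ψ a P x) = r
      simp only [Finset.mul_sum, Finset.sum_mul, mul_add, mul_sub, ← Finset.sum_add_distrib,
        ← Finset.sum_sub_distrib]
      exact Finset.sum_congr rfl fun b _ => by ring
    have e8 : Dd ψ a (fun y => Q y * Dd ψ d P y) x = Dd ψ a Q x * Dd ψ d P x + Q x * Dd ψ a (Dd ψ d P) x := by
      have e2 : ∀ i, pd i (fun y => Q y * Dd ψ d P y) x =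
          pd i Q x * Dd ψ d P x + Q x * pd i (Dd ψ d P) x := fun i =>
        Vale.Agent.P227.M.rpd_mul hQx (hDPx d)
      have e4 : Dd ψ a (fun y => Q y * Dd ψ d P y) x =
        ∑ b, tau ψ x a b * pd b (fun y => Q y * Dd ψ d P y) x := rfl
      have e5 : Dd ψ a (Dd ψ d P) x = ∑ b, tau ψ x a b * pd b (Dd ψ d P) x := rfl
      have e7 : Dd ψ a Q x = ∑ b, tau ψ x a b * pd b Q x := rfl
      rw [e4, e5, e7]
      simp only [e2]
      generalize Dd ψ d P x = r
      simp only [Finset.mul_sum, Finset.sum_mul, mul_add, ← Finset.sum_add_distrib]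
      exact Finset.sum_congr rfl fun b _ => by ring
    rw [e1, e8, hcomm]
    ring
  have : I V (fun x => -((x d * Q x - Dd ψ d Q x) * (x a * P x - Dd ψ a P x)
      - Dd ψ a Q x * Dd ψ d P x - tau ψ x d a * Q x * P x)) =
      - I V (fun x => ((x d * Q x - Dd ψ d Q x) * (x a * P x - Dd ψ a P x)
      - Dd ψ a Q x * Dd ψ d P x - tau ψ x d a * Q x * P x)) := by
    unfold I
    rw [← integral_neg]
    congr 1; ext x; ring
  linarith

end Vale.Agent.P227.M.K814
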