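import Vale.Agent.P227.M.ID.K.Sw

/-! # P227/M/ID/K : the matrix field `U = τ D²F` -/

open MeasureTheory Filter Topology Set Metric
open scoped NNReal ENNReal ContDiff

namespace Vale.Agent.P227.M.K814

variable {n : ℕ} {ψ V : E n → ℝ} {c C M : ℝ}

/-- `U_bd = ∑_c τ_bc ∂_c ∂_d F` -/
noncomputable def Uf (ψ F : E n → ℝ) (b d : Fin n) : E n → ℝ :=
  fun y => ∑ c, tau ψ y b c * hess F y c d

end Vale.Agent.P227.M.K814
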