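import Vale.Agent.P227.M.ID.K.LL
import Vale.Agent.P227.M.ID.Swap414

/-! # P227/M/ID/K : `StmtW` from 414's `Sw.curl` -/

open MeasureTheory
open scoped Topology

namespace Vale.Agent.P227.M.K.W852

variable {n : ℕ}

theorem ll_sw {f : E n → ℝ} (hf : K.LL f) : Sw.LL f := by
  refine Sw.LL.mk' fun R => ?_
  obtain ⟨K, hK⟩ := hf R
  refine ⟨K, fun x hx y hy => ?_⟩
  rw [mem_closedBall_zero_iff] at hx hy
  exact hK x y hx hy

theorem stmtW : StmtW := by
  intro n P G a e hP hG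
  have h := Sw.curl (ll_sw hG) (ll_sw hP.1) (Sw.BS.of_hcs hP.2) a e
  -- h : ∫ pd a G * pd e P = ∫ pd e G * pd a P
  have h1 : ∫ x, pd a P x * pd e G x = ∫ x, pd e G x * pd a P x := by
    congr 1; funext x; ring
  have h2 : ∫ x, pd e P x * pd a G x = ∫ x, pd a G x * pd e P x := by
    congr 1; funext x; ring
  rw [h1, h2, h]

end Vale.Agent.P227.M.K.W852
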